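import Vale.Agent.P248.Flatten

/-!
The volume product of an unconditional amalgam of symmetric convex blocks.
-/

namespace Vale.Agent.P248

open MeasureTheory Set
open scoped ENNReal

lemma map_abs_real : (volume : Measure ℝ).map (fun t => |t|) =
    (2 : ℝ≥0∞) • (volume.restrict (Ici (0 : ℝ))) := by
  have h1 : ∀ t : ℝ, (volume : Measure ℝ).map (fun t => |t|) (Iic t) = ENNReal.ofReal (2 * t) := by
    intro t
    rw [Measure.map_apply (by fun_prop) measurableSet_Iic,
      show (fun s : ℝ => |s|) ⁻¹' Iic t = Icc (-t) t by ext s; simp [abs_le], Real.volume_Icc]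
    ring_nf
  refine ext_Iic_real (fun t => by rw [h1]; exact ENNReal.ofReal_ne_top) fun t => ?_
  rw [h1, Measure.smul_apply, Measure.restrict_apply measurableSet_Iic, Iic_inter_Ici,
    Real.volume_Icc, smul_eq_mul, sub_zero,
    ENNReal.ofReal_mul zero_le_two, ENNReal.ofReal_ofNat]

lemma volume_symm {n : ℕ} {S : Set (Fin n → ℝ)} (hS : MeasurableSet S)
    (hsym : ∀ z, (fun k => |z k|) ∈ S ↔ z ∈ S) :
    volume.real S = 2 ^ n * volume.real {z | (∀ k, 0 ≤ z k) ∧ z ∈ S} := by
  have hm : Measurable fun (z : Fin n → ℝ) k => |z k| := by fun_prop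
  have : SigmaFinite ((volume : Measure ℝ).map fun t => |t|) := by
    rw [map_abs_real]
    exact inferInstanceAs (SigmaFinite ((2 : NNReal) • volume.restrict (Ici (0 : ℝ))))
  have h1 : (volume : Measure (Fin n → ℝ)).map (fun z k => |z k|) =
      (∏ _k : Fin n, (2 : ℝ≥0∞)) • (volume.restrict (Set.univ.pi fun _ => Ici 0)) := by
    rw [volume_pi, Measure.restrict_pi_pi, ← pi_smul_measure _ (fun _ => by simp),
      Measure.pi_map_pi (fun _ => by fun_prop)]
    simp only [map_abs_real]
  have h2 : volume S = (∏ _k : Fin n, (2 : ℝ≥0∞)) * volume {z | (∀ k, 0 ≤ z k) ∧ z ∈ S} := by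
    have := congrArg (fun μ : Measure (Fin n → ℝ) => μ S) h1
    simp only [Measure.map_apply hm hS, Measure.smul_apply, Measure.restrict_apply hS,
      smul_eq_mul] at this
    rw [show (fun (z : Fin n → ℝ) k => |z k|) ⁻¹' S = S by ext z; exact hsym z] at this
    rw [this]
    congr 2
    ext z
    simp [Pi.le_def, and_comm]
  simp [measureReal_def, h2]

variable {ι : Type*} [Fintype ι] {d : ι → ℕ}

lemma amalgam_real {f g : ∀ i, (Fin (d i) → ℝ) → ℝ} (hf : ∀ i, Gauge (f i))
    (hg : ∀ i, Gauge (g i)) {S : Set (ι → ℝ)} (hS : MeasurableSet S) :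
    (∏ i, volume.real {x | g i x ≤ 1}) *
        volume.real {x : ∀ i, Fin (d i) → ℝ | (fun i => f i (x i)) ∈ S} =
      (∏ i, volume.real {x | f i x ≤ 1}) *
        volume.real {x : ∀ i, Fin (d i) → ℝ | (fun i => g i (x i)) ∈ S} := by
  simp only [measureReal_def, ← ENNReal.toReal_prod, ← ENNReal.toReal_mul]
  rw [amalgam_scale hf hg hS]

lemma polar_eq {f : ∀ i, (Fin (d i) → ℝ) → ℝ} (hf : ∀ i, Gauge (f i)) {C : Set (ι → ℝ)}
    (hC : Pattern C) :
    {y : ∀ i, Fin (d i) → ℝ | ∀ x ∈ {x : ∀ i, Fin (d i) → ℝ | (fun i => f i (x i)) ∈ C},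
        ∑ i, ∑ j, x i j * y i j ≤ 1} =
      {y : ∀ i, Fin (d i) → ℝ | (fun i => dual (f i) (y i)) ∈ polarPlus C} := by
  ext y
  constructor
  · intro h
    refine ⟨fun i => (hf i).dual.nonneg _, fun t ht => ?_⟩
    choose w hw hwy using fun i => ((hf i).dual_attained (y i)).1
    have hm := h (fun i => t i • w i) (hC.down t ht _ (fun i => (hf i).nonneg _) fun i => by
      rw [(hf i).hom _ _ (hC.nonneg t ht i)]
      exact mul_le_of_le_one_right (hC.nonneg t ht i) (hw i))
    refine le_of_eq_of_le (Finset.sum_congr rfl fun i _ => ?_) hm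
    simp only [Pi.smul_apply, smul_eq_mul, mul_assoc, ← Finset.mul_sum, hwy]
    ring
  · intro h x hx
    refine le_trans (Finset.sum_le_sum fun i _ => ?_) (h.2 _ hx)
    exact ((hf i).pairing_le le_rfl (y i)).trans_eq (mul_comm _ _)

/-- The amalgam inequality. -/
theorem amalgam_product {f : ∀ i, (Fin (d i) → ℝ) → ℝ} (hf : ∀ i, Gauge (f i))
    {C : Set (ι → ℝ)} (hC : Pattern C) :
    ∏ i, ((d i).factorial * (volume.real {x | f i x ≤ 1} *
        volume.real {y : Fin (d i) → ℝ | ∀ x ∈ {x | f i x ≤ 1}, ∑ j, x j * y j ≤ 1})) ≤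
      ((∑ i, d i).factorial : ℝ) *
        (volume.real {x : ∀ i, Fin (d i) → ℝ | (fun i => f i (x i)) ∈ C} *
          volume.real {y : ∀ i, Fin (d i) → ℝ | ∀ x ∈ {x : ∀ i, Fin (d i) → ℝ |
            (fun i => f i (x i)) ∈ C}, ∑ i, ∑ j, x i j * y i j ≤ 1}) := by
  classical
  let e : Fin (∑ i, d i) ≃ Σ i, Fin (d i) :=
    (Fintype.equivFinOfCardEq (by simp [Fintype.card_sigma])).symm
  have hd : ∀ i, {y : Fin (d i) → ℝ | ∀ x ∈ {x | f i x ≤ 1}, ∑ j, x j * y j ≤ 1} = {y | dual (f i) y ≤ 1} :=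
    fun i => by ext y; exact ((hf i).dual_le_iff y).symm
  simp only [hd, polar_eq hf hC]
  have hP := (polarPlus_compact hC).measurableSet
  have hK := amalgam_real hf (fun i => gauge_sup (d := d i)) hC.compact.measurableSet
  have hL := amalgam_real (fun i => (hf i).dual) (fun i => gauge_l1 (d := d i)) hP
  simp only [measureReal_def, volume_sup_unit, volume_l1_unit] at hK hL
  simp only [← measureReal_def, ENNReal.toReal_ofReal (show (0 : ℝ) ≤ 2 ^ _ by positivity)] at hK
  have hr : ∀ i, (ENNReal.ofReal ((2 : ℝ) ^ d i / (d i).factorial)).toReal =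
      (2 : ℝ) ^ d i / (d i).factorial := fun i => ENNReal.toReal_ofReal (by positivity)
  simp only [← measureReal_def, hr] at hL
  have hmb := measurePreserving_blocks (d := d) e
  have hA : volume.real {x : ∀ i, Fin (d i) → ℝ | (fun i => ‖x i‖) ∈ C} =
      2 ^ (∑ i, d i) * volume.real (cubeSet e C) := by
    have hms : MeasurableSet {x : ∀ i, Fin (d i) → ℝ | (fun i => ‖x i‖) ∈ C} :=
      hC.compact.isClosed.measurableSet.preimage (by fun_prop)
    rw [measureReal_def, ← hmb.measure_preimage hms.nullMeasurableSet, ← measureReal_def,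
      volume_symm (hms.preimage hmb.measurable) fun z => ?_]
    · rfl
    have : ∀ i, ‖blocks e (fun k => |z k|) i‖ = ‖blocks e z i‖ := fun i => by
      simp only [Pi.norm_def]
      congr 2
      funext j
      ext
      simp [blocks]
    simp only [mem_preimage, mem_ofPred_eq, this]
  have hB : volume.real {x : ∀ i, Fin (d i) → ℝ | (fun i => ∑ j, |x i j|) ∈ polarPlus C} =
      2 ^ (∑ i, d i) * volume.real (crossSet e C) := by
    have hms : MeasurableSet {x : ∀ i, Fin (d i) → ℝ | (fun i => ∑ j, |x i j|) ∈ polarPlus C} :=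
      hP.preimage (by fun_prop)
    rw [measureReal_def, ← hmb.measure_preimage hms.nullMeasurableSet, ← measureReal_def,
      volume_symm (hms.preimage hmb.measurable) fun z => ?_]
    · rfl
    simp [blocks]
  have hSR := orthant_product (cubeSet_down e hC) (crossSet_down e hC)
    (cross_contains e hC) (cube_contains e hC)
  rw [hA, Finset.prod_pow_eq_pow_sum] at hK
  rw [hB, Finset.prod_div_distrib, Finset.prod_pow_eq_pow_sum] at hL
  set VA := volume.real (cubeSet e C)
  set VB := volume.real (crossSet e C)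
  set U := ∏ i, volume.real {x | f i x ≤ 1}
  set U' := ∏ i, volume.real {x | dual (f i) x ≤ 1}
  set F : ℝ := ∏ i, ((d i).factorial : ℝ)
  set VK := volume.real {x : ∀ i, Fin (d i) → ℝ | (fun i => f i (x i)) ∈ C}
  set VL := volume.real {x : ∀ i, Fin (d i) → ℝ | (fun i => dual (f i) (x i)) ∈ polarPlus C}
  rw [Finset.prod_mul_distrib, Finset.prod_mul_distrib]
  have h2 : (0 : ℝ) < 2 ^ (∑ i, d i) := by positivity
  have hF : (0 : ℝ) < F := Finset.prod_pos fun i _ => by positivity
  have hU : 0 ≤ U := Finset.prod_nonneg fun i _ => measureReal_nonneg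
  have hU' : 0 ≤ U' := Finset.prod_nonneg fun i _ => measureReal_nonneg
  have e1 : VK = U * VA := mul_left_cancel₀ h2.ne' (hK.trans (by ring))
  have e2 : VL = F * U' * VB := by
    rw [div_mul_eq_mul_div, div_eq_iff hF.ne'] at hL
    exact mul_left_cancel₀ h2.ne' (hL.trans (by ring))
  have h3 : 1 ≤ ((∑ i, d i).factorial : ℝ) * (VA * VB) := by
    rwa [div_le_iff₀ (by positivity), mul_comm] at hSR
  calc F * (U * U') = F * (U * U') * 1 := (mul_one _).symm
    _ ≤ F * (U * U') * (((∑ i, d i).factorial : ℝ) * (VA * VB)) :=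
      mul_le_mul_of_nonneg_left h3 (by positivity)
    _ = _ := by rw [e1, e2]; ring

end Vale.Agent.P248
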