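import Vale.Agent.P248.Planar

/-!
If a box `∏ [-c_j, c_j]` lies in the polar of a body, its volume is bounded below by the
projections of the polar in the coordinate directions (monotonicity of the mixed volume, proved
here by Fubini).
-/

namespace Vale.Agent.P248

open MeasureTheory Set
open scoped ENNReal

variable {n : ℕ}

/-- Symmetric convex bodies. -/
structure SymBody (K : Set (Fin n → ℝ)) : Prop where
  conv : Convex ℝ K
  compact : IsCompact K
  symm : ∀ x ∈ K, -x ∈ K
  zero : (0 : Fin n → ℝ) ∈ interior K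

lemma SymBody.ball {K : Set (Fin n → ℝ)} (h : SymBody K) :
    ∃ r > 0, ∀ x : Fin n → ℝ, ‖x‖ ≤ r → x ∈ K := by
  obtain ⟨ε, hε, hsub⟩ := Metric.mem_nhds_iff.1 (mem_interior_iff_mem_nhds.1 h.zero)
  exact ⟨ε / 2, half_pos hε, fun x hx => hsub (by
    rw [mem_ball_zero_iff]; linarith)⟩

lemma SymBody.face {K : Set (Fin (n + 1) → ℝ)} (h : SymBody K) (i : Fin (n + 1)) :
    SymBody (Vale.Agent.P248.face K i) := by
  have hc : Continuous fun a : Fin n → ℝ => (i.insertNth 0 a : Fin (n + 1) → ℝ) :=
    continuous_const.finInsertNth i continuous_id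
  refine ⟨fun a ha b hb u v hu hv huv => ?_, ?_, fun a ha => ?_, ?_⟩
  · show i.insertNth 0 (u • a + v • b) ∈ K
    convert h.conv ha hb hu hv huv using 1
    funext j
    rcases Fin.eq_self_or_eq_succAbove i j with rfl | ⟨j, rfl⟩ <;> simp
  · refine Metric.isCompact_of_isClosed_isBounded (h.compact.isClosed.preimage hc) ?_
    obtain ⟨M, hM⟩ := h.compact.isBounded.exists_norm_le
    refine Bornology.IsBounded.subset Metric.isBounded_closedBall (fun a ha => ?_) (t :=
      Metric.closedBall (0 : Fin n → ℝ) (max M 0))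
    rw [mem_closedBall_zero_iff, pi_norm_le_iff_of_nonneg (le_max_right M 0)]
    intro j
    have := (norm_le_pi_norm (i.insertNth 0 a) (i.succAbove j)).trans
      (hM _ (show i.insertNth 0 a ∈ K from ha))
    simpa using this.trans (le_max_left M 0)
  · show i.insertNth 0 (-a) ∈ K
    convert h.symm _ ha using 1
    funext j
    rcases Fin.eq_self_or_eq_succAbove i j with rfl | ⟨j, rfl⟩ <;> simp
  · have : (0 : Fin n → ℝ) ∈ (fun a : Fin n → ℝ => (i.insertNth 0 a : Fin (n + 1) → ℝ)) ⁻¹'
        interior K := by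
      show i.insertNth 0 0 ∈ interior K
      convert h.zero using 1
      funext j
      rcases Fin.eq_self_or_eq_succAbove i j with rfl | ⟨j, rfl⟩ <;> simp
    refine interior_maximal (s := Vale.Agent.P248.face K i) ?_
      (isOpen_interior.preimage hc) this
    intro a ha
    exact interior_subset (s := K) ha

lemma SymBody.polar_norm_le {K : Set (Fin n → ℝ)} {r C : ℝ} (hr : 0 < r)
    (hK : ∀ x : Fin n → ℝ, ‖x‖ ≤ r → x ∈ K) {z : Fin n → ℝ} (hC : 0 ≤ C)
    (hz : ∀ x ∈ K, ∑ j, x j * z j ≤ C) : ‖z‖ ≤ C / r := by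
  rw [pi_norm_le_iff_of_nonneg (by positivity)]
  intro j
  have hmem : ∀ s : ℝ, |s| ≤ r → (Pi.single j s : Fin n → ℝ) ∈ K := fun s hs => hK _ (by
    rw [Pi.norm_single, Real.norm_eq_abs]; exact hs)
  have key : ∀ s : ℝ, |s| ≤ r → s * z j ≤ C := fun s hs => by
    have := hz _ (hmem s hs)
    simpa [Pi.single_apply] using this
  have h1 := key r (by rw [abs_of_pos hr])
  have h2 := key (-r) (by rw [abs_neg, abs_of_pos hr])
  rw [Real.norm_eq_abs, abs_le, le_div_iff₀ hr, neg_le_iff_add_nonneg]
  refine ⟨?_, by linarith⟩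
  have : -z j ≤ C / r := (le_div_iff₀ hr).2 (by linarith)
  linarith

lemma SymBody.polar_compact {K : Set (Fin n → ℝ)} (h : SymBody K) :
    IsCompact (polarSet K) := by
  obtain ⟨r, hr, hK⟩ := h.ball
  refine Metric.isCompact_of_isClosed_isBounded (polarSet_closed K)
    (Bornology.IsBounded.subset Metric.isBounded_closedBall (t := Metric.closedBall 0 (1 / r))
      fun z hz => ?_)
  rw [mem_closedBall_zero_iff]
  exact SymBody.polar_norm_le hr hK zero_le_one hz

/-- Every functional bounded by one on the central section extends to the whole body. -/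
lemma polar_face_subset {K : Set (Fin (n + 1) → ℝ)} (h : SymBody K) (i : Fin (n + 1))
    {y : Fin n → ℝ} (hy : y ∈ polarSet (Vale.Agent.P248.face K i)) :
    ∃ t, i.insertNth t y ∈ polarSet K := by
  set g : (Fin (n + 1) → ℝ) → ℝ := fun x => 1 - ∑ j, x (i.succAbove j) * y j with hg
  have hsum : ∀ t, ∀ x : Fin (n + 1) → ℝ,
      ∑ j, x j * (i.insertNth t y : Fin (n + 1) → ℝ) j =
        x i * t + (1 - g x) := fun t x => by
    rw [Fin.sum_univ_succAbove _ i]; simp [hg]
  have hflat : ∀ x ∈ K, x i = 0 → 0 ≤ g x := fun x hx hxi => by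
    have := hy (i.removeNth x) (by
      show i.insertNth 0 (i.removeNth x) ∈ K
      rwa [← hxi, Fin.insertNth_self_removeNth])
    simp only [Fin.removeNth] at this
    simp only [hg]
    linarith
  have hpair : ∀ x ∈ K, ∀ z ∈ K, 0 < x i → z i < 0 → g z / z i ≤ g x / x i := by
    intro x hx z hz hxi hzi
    have hd : 0 < x i - z i := by linarith
    have hw := h.conv hx hz (div_nonneg (neg_nonneg.2 hzi.le) hd.le)
      (div_nonneg hxi.le hd.le) (by field_simp; ring)
    have h0 := hflat _ hw (by simp; field_simp; ring)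
    have hlin : g ((-z i / (x i - z i)) • x + (x i / (x i - z i)) • z) =
        (-z i * g x + x i * g z) / (x i - z i) := by
      simp only [hg, Pi.add_apply, Pi.smul_apply, smul_eq_mul, add_mul, Finset.sum_add_distrib,
        mul_assoc, ← Finset.mul_sum]
      field_simp
      ring
    rw [hlin] at h0
    have h1 : 0 ≤ -z i * g x + x i * g z := by
      by_contra hc
      exact absurd h0 (not_le.2 (div_neg_of_neg_of_pos (not_le.1 hc) hd))
    rw [div_le_iff_of_neg hzi, div_mul_eq_mul_div, div_le_iff₀ hxi]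
    nlinarith
  obtain ⟨r, hr, hK⟩ := h.ball
  have hp : (Pi.single i r : Fin (n + 1) → ℝ) ∈ K :=
    hK _ (by rw [Pi.norm_single, Real.norm_eq_abs, abs_of_pos hr])
  have hm : (Pi.single i (-r) : Fin (n + 1) → ℝ) ∈ K :=
    hK _ (by rw [Pi.norm_single, Real.norm_eq_abs, abs_neg, abs_of_pos hr])
  set S : Set ℝ := (fun z => g z / z i) '' {z ∈ K | z i < 0} with hS
  have hne : S.Nonempty := ⟨_, mem_image_of_mem _ ⟨hm, by simpa using hr⟩⟩
  have hbd : BddAbove S := ⟨g (Pi.single i r) / r, by
    rintro _ ⟨z, ⟨hz, hzi⟩, rfl⟩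
    simpa using hpair _ hp z hz (by simpa using hr) hzi⟩
  refine ⟨sSup S, fun x hx => ?_⟩
  rw [hsum]
  rcases lt_trichotomy (x i) 0 with hxi | hxi | hxi
  · have := le_csSup hbd (mem_image_of_mem _ (show x ∈ {z ∈ K | z i < 0} from ⟨hx, hxi⟩))
    rw [div_le_iff_of_neg hxi] at this
    linarith
  · have := hflat x hx hxi
    rw [hxi]
    linarith
  · have : sSup S ≤ g x / x i := csSup_le hne (by
      rintro _ ⟨z, ⟨hz, hzi⟩, rfl⟩
      exact hpair x hx z hz hxi hzi)
    rw [le_div_iff₀ hxi] at this
    linarith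

lemma slice_grow {S S' : Set ℝ} (hS : IsCompact S) (hne : S.Nonempty) {a : ℝ} (ha : 0 ≤ a)
    (h : ∀ u ∈ S, ∀ δ, |δ| ≤ a → u + δ ∈ S') :
    volume S + ENNReal.ofReal (2 * a) ≤ volume S' := by
  have hp := hS.sInf_mem hne
  have hq := hS.sSup_mem hne
  set p := sInf S
  set q := sSup S
  have hd1 : Disjoint S (Ico (p - a) p) := Set.disjoint_left.2 fun u hu h2 =>
    absurd (csInf_le hS.bddBelow hu) (not_le.2 h2.2)
  have hd2 : Disjoint (S ∪ Ico (p - a) p) (Ioc q (q + a)) := by
    refine Set.disjoint_left.2 fun u hu h2 => ?_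
    rcases hu with hu | hu
    · exact absurd (le_csSup hS.bddAbove hu) (not_le.2 h2.1)
    · linarith [hu.2, h2.1, csInf_le hS.bddBelow hq]
  have hsub : S ∪ Ico (p - a) p ∪ Ioc q (q + a) ⊆ S' := by
    rintro u ((hu | hu) | hu)
    · simpa using h u hu 0 (by simpa using ha)
    · have := h p hp (u - p) (abs_le.2 ⟨by linarith [hu.1], by linarith [hu.2]⟩)
      simpa using this
    · have := h q hq (u - q) (abs_le.2 ⟨by linarith [hu.1], by linarith [hu.2]⟩)
      simpa using this
  refine le_trans (le_of_eq ?_) (measure_mono hsub)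
  rw [measure_union hd2 measurableSet_Ioc, measure_union hd1 measurableSet_Ico, Real.volume_Ico,
    Real.volume_Ioc, add_assoc, ← ENNReal.ofReal_add (by linarith) (by linarith)]
  ring_nf

/-- Adding a segment in a coordinate direction adds the projection times its length. -/
lemma segment_grow {M M' : Set (Fin (n + 1) → ℝ)} (hM : IsCompact M) (hM' : MeasurableSet M')
    (i : Fin (n + 1)) {a : ℝ} (ha : 0 ≤ a)
    (h : ∀ z ∈ M, ∀ δ, |δ| ≤ a → Function.update z i (z i + δ) ∈ M') :
    volume M + ENNReal.ofReal (2 * a) * volume (i.removeNth '' M) ≤ volume M' := by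
  have hmp := (volume_preserving_piFinSuccAbove (fun _ : Fin (n + 1) => ℝ) i).symm
  have hP : MeasurableSet (i.removeNth '' M) :=
    (hM.image (by unfold Fin.removeNth; fun_prop)).measurableSet
  rw [← hmp.measure_preimage hM.measurableSet.nullMeasurableSet,
    ← hmp.measure_preimage hM'.nullMeasurableSet, Measure.volume_eq_prod,
    Measure.prod_apply_symm (hmp.measurable hM.measurableSet),
    Measure.prod_apply_symm (hmp.measurable hM'), ← lintegral_indicator_const hP,
    ← lintegral_add_left (measurable_measure_prodMk_right (hmp.measurable hM.measurableSet))]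
  refine lintegral_mono fun y => ?_
  show volume {u | i.insertNth u y ∈ M} +
      (i.removeNth '' M).indicator (fun _ => ENNReal.ofReal (2 * a)) y ≤
    volume {u | i.insertNth u y ∈ M'}
  by_cases hy : y ∈ i.removeNth '' M
  · rw [indicator_of_mem hy]
    obtain ⟨z, hz, rfl⟩ := hy
    have hcont : Continuous fun u : ℝ => (i.insertNth u (i.removeNth z) : Fin (n + 1) → ℝ) :=
      Continuous.finInsertNth (A := fun _ : Fin (n + 1) => ℝ) i continuous_id continuous_const
    refine slice_grow ((hM.image (continuous_apply i)).of_isClosed_subset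
      (hM.isClosed.preimage hcont) fun u hu => ⟨_, hu, by simp⟩) ⟨z i, ?_⟩ ha fun u hu δ hδ => ?_
    · show i.insertNth (z i) (i.removeNth z) ∈ M
      rwa [Fin.insertNth_self_removeNth]
    · have := h _ hu δ hδ
      simpa [Fin.update_insertNth] using this
  · rw [indicator_of_notMem hy, add_zero]
    have : {u | i.insertNth u y ∈ M} = ∅ := eq_empty_of_forall_notMem fun u hu =>
      hy ⟨_, hu, by simp⟩
    rw [this, measure_empty]
    exact zero_le

lemma pow_grow {t : ℝ} (ht : 0 ≤ t) : ∀ n : ℕ,
    (1 + t) ^ (n + 1) - 1 ≤ t * ((n + 1) * (1 + t) ^ n) := by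
  intro n
  induction n with
  | zero => simp
  | succ n ih =>
    have h1 : (1 : ℝ) ≤ (1 + t) ^ (n + 1) := one_le_pow₀ (by linarith)
    push_cast
    rw [pow_succ _ (n + 1)]
    nlinarith [mul_le_mul_of_nonneg_left ih (by linarith : (0 : ℝ) ≤ 1 + t),
      mul_le_mul_of_nonneg_left h1 ht, pow_succ (1 + t) n]

/-- The polar grown by `t` times the box, one coordinate at a time. -/
def grown (K : Set (Fin n → ℝ)) (c : Fin n → ℝ) (t : ℝ) (s : Finset (Fin n)) :
    Set (Fin n → ℝ) :=
  {z | ∀ x ∈ K, ∑ j, x j * z j ≤ 1 + t * ∑ j ∈ s, c j * |x j|}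

/-- A box inside the polar bounds its volume below by the coordinate sections of the body. -/
theorem box_bound {K : Set (Fin (n + 1) → ℝ)} (h : SymBody K) {c : Fin (n + 1) → ℝ}
    (hc : ∀ j, 0 ≤ c j) (hbox : ∀ x ∈ K, ∑ j, c j * |x j| ≤ 1) :
    2 * ∑ i, c i * volume.real (polarSet (Vale.Agent.P248.face K i)) ≤
      (n + 1) * volume.real (polarSet K) := by
  set W := volume.real (polarSet K)
  have key : ∀ t : ℝ, 0 < t → 2 * ∑ i, c i * volume.real (polarSet (Vale.Agent.P248.face K i)) ≤
      (n + 1) * (1 + t) ^ n * W := by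
    intro t ht
    have hclosed : ∀ s, IsClosed (grown K c t s) := fun s => by
      have : grown K c t s = ⋂ x ∈ K, {z | ∑ j, x j * z j ≤ 1 + t * ∑ j ∈ s, c j * |x j|} := by
        ext z; simp [grown]
      rw [this]
      exact isClosed_biInter fun x _ => isClosed_le (by fun_prop) continuous_const
    have hsub : ∀ s, grown K c t s ⊆ (fun z => (1 + t) • z) '' polarSet K := by
      intro s z hz
      refine ⟨(1 + t)⁻¹ • z, fun x hx => ?_, by
        simp [smul_smul, mul_inv_cancel₀ (by positivity : (1 + t) ≠ 0)]⟩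
      have h1 : ∑ j ∈ s, c j * |x j| ≤ 1 := le_trans (Finset.sum_le_sum_of_subset_of_nonneg
        (Finset.subset_univ s) fun j _ _ => mul_nonneg (hc j) (abs_nonneg _)) (hbox x hx)
      have h2 := hz x hx
      have : ∑ j, x j * ((1 + t)⁻¹ • z) j = (1 + t)⁻¹ * ∑ j, x j * z j := by
        rw [Finset.mul_sum]; exact Finset.sum_congr rfl fun j _ => by simp; ring
      rw [this, ← div_eq_inv_mul, div_le_one (by positivity)]
      nlinarith
    have hcpt : ∀ s, IsCompact (grown K c t s) := fun s =>
      (h.polar_compact.image (continuous_const_smul _)).of_isClosed_subset (hclosed s) (hsub s)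
    have hstep : ∀ s : Finset (Fin (n + 1)),
        volume (polarSet K) + ∑ i ∈ s, ENNReal.ofReal (2 * (t * c i)) *
          volume (polarSet (Vale.Agent.P248.face K i)) ≤ volume (grown K c t s) := by
      intro s
      induction s using Finset.induction_on with
      | empty => simp [grown, polarSet]
      | insert i s his ih =>
        rw [Finset.sum_insert his, add_left_comm, add_comm (ENNReal.ofReal _ * _)]
        refine le_trans (add_le_add ih (mul_le_mul_right (measure_mono ?_) _)) (segment_grow
          (hcpt s) (hclosed _).measurableSet i (mul_nonneg ht.le (hc i)) ?_)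
        · intro y hy
          obtain ⟨u, hu⟩ := polar_face_subset h i hy
          refine ⟨i.insertNth u y, fun x hx => ?_, by funext j; simp [Fin.removeNth]⟩
          have : 0 ≤ t * ∑ j ∈ s, c j * |x j| :=
            mul_nonneg ht.le (Finset.sum_nonneg fun j _ => mul_nonneg (hc j) (abs_nonneg _))
          linarith [hu x hx]
        · intro z hz δ hδ x hx
          rw [Finset.sum_insert his]
          have h1 : ∑ j, x j * Function.update z i (z i + δ) j = (∑ j, x j * z j) + x i * δ := by
            rw [Fin.sum_univ_succAbove _ i, Fin.sum_univ_succAbove (fun j => x j * z j) i]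
            simp [mul_add, Fin.succAbove_ne]
            ring
          have h2 : x i * δ ≤ |x i| * (t * c i) :=
            (le_abs_self _).trans (by rw [abs_mul]; exact mul_le_mul_of_nonneg_left hδ (abs_nonneg _))
          rw [h1]
          linarith [hz x hx]
    have h0 := (hstep Finset.univ).trans (measure_mono (hsub _))
    rw [Set.image_smul, Measure.addHaar_smul_of_nonneg volume (by positivity : (0 : ℝ) ≤ 1 + t),
      Module.finrank_fin_fun] at h0
    have hfin := h.polar_compact.measure_lt_top (μ := volume).ne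
    have hf : ∀ i ∈ Finset.univ, ENNReal.ofReal (2 * (t * c i)) *
        volume (polarSet (Vale.Agent.P248.face K i)) ≠ ⊤ := fun i _ =>
      ENNReal.mul_ne_top ENNReal.ofReal_ne_top (h.face i).polar_compact.measure_lt_top.ne
    have h1 := ENNReal.toReal_mono (ENNReal.mul_ne_top ENNReal.ofReal_ne_top hfin) h0
    rw [ENNReal.toReal_add hfin (ENNReal.sum_ne_top.2 hf), ENNReal.toReal_sum hf,
      ENNReal.toReal_mul, ENNReal.toReal_ofReal (by positivity)] at h1
    have h2 : ∑ i, (ENNReal.ofReal (2 * (t * c i)) *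
        volume (polarSet (Vale.Agent.P248.face K i))).toReal =
        t * (2 * ∑ i, c i * volume.real (polarSet (Vale.Agent.P248.face K i))) := by
      simp_rw [Finset.mul_sum, ENNReal.toReal_mul,
        ENNReal.toReal_ofReal (mul_nonneg zero_le_two (mul_nonneg ht.le (hc _))), measureReal_def]
      exact Finset.sum_congr rfl fun i _ => by ring
    rw [h2, ← measureReal_def] at h1
    refine le_of_mul_le_mul_left ?_ ht
    have h3 := pow_grow ht.le n
    nlinarith [mul_le_mul_of_nonneg_right h3 (measureReal_nonneg (μ := volume)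
      (s := polarSet K))]
  have hlim : Filter.Tendsto (fun t : ℝ => ((n : ℝ) + 1) * (1 + t) ^ n * W)
      (nhdsWithin 0 (Ioi 0)) (nhds (((n : ℝ) + 1) * W)) := by
    refine (Continuous.tendsto' (by fun_prop) 0 _ ?_).mono_left nhdsWithin_le_nhds
    simp
  exact ge_of_tendsto hlim (eventually_nhdsWithin_of_forall fun t ht => key t ht)

end Vale.Agent.P248
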