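import Vale.Agent.P248.BoxGrowth

/-!
Mahler's symmetric inequality for bodies equipartitioned by the coordinate orthants, and its
consequences for bodies invariant under sign changes of pairs of coordinates.
-/

namespace Vale.Agent.P248

open MeasureTheory Set
open scoped ENNReal

variable {n : ℕ}

/-- All entries are `1` or `-1`. -/
def IsSign (s : Fin n → ℝ) : Prop := ∀ i, s i = 1 ∨ s i = -1

/-- The piece of `K` in the orthant of signs `s`, reflected into the positive orthant. -/
def piece (K : Set (Fin n → ℝ)) (s : Fin n → ℝ) : Set (Fin n → ℝ) :=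
  {z | (∀ i, 0 ≤ z i) ∧ (fun i => s i * z i) ∈ K}

/-- The section by the coordinate subspace selected by `e`. -/
def sect {k : ℕ} (K : Set (Fin n → ℝ)) (e : Fin k → Fin n) : Set (Fin k → ℝ) :=
  {a | Function.extend e a 0 ∈ K}

/-- The sign vector of a Boolean pattern. -/
def sg (b : Fin n → Bool) : Fin n → ℝ := fun i => if b i then 1 else -1

lemma isSign_sg (b : Fin n → Bool) : IsSign (sg b) := fun i => by
  by_cases h : b i <;> simp [sg, h]

lemma IsSign.mul_self {s : Fin n → ℝ} (hs : IsSign s) (i : Fin n) : s i * s i = 1 := by
  rcases hs i with h | h <;> simp [h]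

lemma piece_closed {K : Set (Fin n → ℝ)} (hK : IsClosed K) (s : Fin n → ℝ) :
    IsClosed (piece K s) := by
  simp only [piece, ofPred_and, ofPred_forall]
  exact (isClosed_iInter fun i => isClosed_le continuous_const (continuous_apply i)).inter
    (hK.preimage (by fun_prop))

lemma piece_conv {K : Set (Fin n → ℝ)} (hK : Convex ℝ K) (s : Fin n → ℝ) :
    Convex ℝ (piece K s) := by
  intro x hx y hy u v hu hv huv
  refine ⟨fun i => ?_, ?_⟩
  · simp only [Pi.add_apply, Pi.smul_apply, smul_eq_mul]
    exact add_nonneg (mul_nonneg hu (hx.1 i)) (mul_nonneg hv (hy.1 i))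
  · convert hK hx.2 hy.2 hu hv huv using 1
    funext i
    simp
    ring

lemma piece_compact {K : Set (Fin n → ℝ)} (hK : IsCompact K) {s : Fin n → ℝ} (hs : IsSign s) :
    IsCompact (piece K s) :=
  (hK.image (f := fun y i => s i * y i) (by fun_prop)).of_isClosed_subset
    (piece_closed hK.isClosed s) fun z hz => ⟨_, hz.2, by
      funext i; simp [← mul_assoc, hs.mul_self]⟩

lemma face_piece (K : Set (Fin (n + 1) → ℝ)) (s : Fin (n + 1) → ℝ) (i : Fin (n + 1)) :
    face (piece K s) i = piece (face K i) (fun j => s (i.succAbove j)) := by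
  have key : ∀ a : Fin n → ℝ, (fun j => s j * (i.insertNth 0 a : Fin (n + 1) → ℝ) j) =
      i.insertNth 0 (fun j => s (i.succAbove j) * a j) := fun a => by
    funext j
    rcases Fin.eq_self_or_eq_succAbove i j with rfl | ⟨j, rfl⟩ <;> simp
  ext a
  simp only [face, piece, mem_ofPred_eq, key]
  refine and_congr_left fun _ => ⟨fun h j => by simpa using h (i.succAbove j), fun h j => ?_⟩
  rcases Fin.eq_self_or_eq_succAbove i j with rfl | ⟨j, rfl⟩ <;> simp [h]

/-- The orthant pieces make up the body. -/
lemma sum_pieces {K : Set (Fin n → ℝ)} (hK : IsCompact K) :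
    ∑ b : Fin n → Bool, volume.real (piece K (sg b)) = volume.real K := by
  let cone : (Fin n → Bool) → Set (Fin n → ℝ) := fun b => {y | ∀ i, 0 ≤ sg b i * y i}
  have hcone : ∀ b, MeasurableSet (cone b) := fun b => by
    simp only [cone, ofPred_forall]
    exact MeasurableSet.iInter fun i => measurableSet_le measurable_const (by fun_prop)
  have hpiece : ∀ b, volume (piece K (sg b)) = volume (K ∩ cone b) := fun b => by
    set f := Matrix.toLin' (Matrix.diagonal (sg b))
    have hf : ∀ z i, f z i = sg b i * z i := fun z i => by simp [f, Matrix.mulVec_diagonal]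
    have hd : |LinearMap.det f| = 1 := by
      simp only [f, LinearMap.det_toLin', Matrix.det_diagonal, Finset.abs_prod]
      exact Finset.prod_eq_one fun i _ => by rcases isSign_sg b i with h | h <;> simp [h]
    have hpre : piece K (sg b) = f ⁻¹' (K ∩ cone b) := by
      ext z
      have e : f z = fun i => sg b i * z i := funext (hf z)
      simp only [piece, cone, mem_preimage, mem_inter_iff, mem_ofPred_eq, e, ← mul_assoc,
        (isSign_sg b).mul_self, one_mul]
      tauto
    rw [hpre, Measure.addHaar_preimage_linearMap volume (fun h => by simp [h] at hd), abs_inv, hd]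
    simp
  have hnull : Pairwise fun b b' => AEDisjoint volume (K ∩ cone b) (K ∩ cone b') := by
    intro b b' hbb
    obtain ⟨i, hi⟩ := Function.ne_iff.1 hbb
    refine measure_mono_null (t := {z : Fin n → ℝ | z i = 0}) (fun z hz => ?_)
      (Measure.pi_hyperplane _ i 0)
    have h1 := hz.1.2 i
    have h2 := hz.2.2 i
    simp only [sg] at h1 h2
    show z i = 0
    rcases Bool.eq_false_or_eq_true (b i) with h | h <;>
      rcases Bool.eq_false_or_eq_true (b' i) with h' | h' <;>
      simp [h, h'] at hi h1 h2 <;> linarith
  have hun : K = ⋃ b, K ∩ cone b := by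
    refine subset_antisymm (fun z hz => ?_) (iUnion_subset fun b => inter_subset_left)
    refine mem_iUnion.2 ⟨fun i => decide (0 ≤ z i), ?_⟩
    refine ⟨hz, fun (i : Fin n) => ?_⟩
    by_cases h : 0 ≤ z i
    · simp [sg, h]
    · simp [sg, h]; linarith
  conv_rhs => rw [measureReal_def, hun, measure_iUnion₀ hnull
    fun b => (hK.measurableSet.inter (hcone b)).nullMeasurableSet, tsum_fintype]
  rw [ENNReal.toReal_sum fun b _ =>
    ((measure_mono inter_subset_left).trans_lt hK.measure_lt_top).ne]
  exact Finset.sum_congr rfl fun b _ => by rw [measureReal_def, hpiece]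

lemma SymBody.volume_pos {K : Set (Fin n → ℝ)} (h : SymBody K) : 0 < volume.real K :=
  ENNReal.toReal_pos ((IsOpen.measure_pos volume (isOpen_interior (s := K)) ⟨0, h.zero⟩).trans_le
    (measure_mono interior_subset)).ne' h.compact.measure_lt_top.ne

/-- Every proper coordinate section is equipartitioned by the orthants. -/
def ProperEqui (K : Set (Fin n → ℝ)) : Prop :=
  ∀ k < n, ∀ e : Fin k → Fin n, Function.Injective e → ∀ s t : Fin k → ℝ, IsSign s → IsSign t →
    volume (piece (sect K e) s) = volume (piece (sect K e) t)

lemma sect_succAbove (K : Set (Fin (n + 1) → ℝ)) (i : Fin (n + 1)) {k : ℕ} {e : Fin k → Fin n}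
    (he : Function.Injective e) :
    sect (face K i) e = sect K (fun j => i.succAbove (e j)) := by
  ext a
  have he' : Function.Injective fun j => i.succAbove (e j) :=
    Fin.succAbove_right_injective.comp he
  have : i.insertNth 0 (Function.extend e a 0) =
      Function.extend (fun j => i.succAbove (e j)) a 0 := by
    funext j
    rcases Fin.eq_self_or_eq_succAbove i j with rfl | ⟨j, rfl⟩
    · rw [Fin.insertNth_apply_same, Function.extend_apply']
      · simp
      · rintro ⟨l, hl⟩
        exact Fin.succAbove_ne _ _ hl
    · rw [Fin.insertNth_apply_succAbove]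
      by_cases hj : ∃ l, e l = j
      · obtain ⟨l, rfl⟩ := hj
        rw [he.extend_apply, he'.extend_apply]
      · rw [Function.extend_apply' _ _ _ hj, Function.extend_apply']
        · simp
        · rintro ⟨l, hl⟩
          exact hj ⟨l, Fin.succAbove_right_injective hl⟩
  show i.insertNth 0 (Function.extend e a 0) ∈ K ↔ _
  rw [this]
  rfl

lemma sect_id (K : Set (Fin n → ℝ)) : sect K id = K := by
  ext a
  simp [sect, Function.extend_id]

/-- The orthant pieces of a facet section are equal. -/
lemma face_piece_volume {K : Set (Fin (n + 1) → ℝ)} (hK : SymBody K) (hE : ProperEqui K)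
    (i : Fin (n + 1)) {s : Fin n → ℝ} (hs : IsSign s) :
    volume.real (piece (face K i) s) = volume.real (face K i) / 2 ^ n := by
  have heq : ∀ t, IsSign t → volume (piece (face K i) s) = volume (piece (face K i) t) := by
    intro t ht
    have h1 := hE n (Nat.lt_succ_self n) (fun j => i.succAbove (id j))
      Fin.succAbove_right_injective s t hs ht
    rwa [← sect_succAbove K i Function.injective_id, sect_id] at h1
  have h2 := sum_pieces (hK.face i).compact
  rw [Finset.sum_congr rfl (g := fun _ => volume.real (piece (face K i) s)) fun b _ => by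
    rw [measureReal_def, measureReal_def, heq _ (isSign_sg b)]] at h2
  simp only [Finset.sum_const, Finset.card_univ, Fintype.card_fun, Fintype.card_bool,
    Fintype.card_fin, nsmul_eq_mul, Nat.cast_pow, Nat.cast_ofNat] at h2
  rw [eq_div_iff (by positivity), mul_comm]
  exact h2

/-- The main inequality. -/
theorem equipartition_bound : ∀ {n : ℕ} {K : Set (Fin n → ℝ)}, SymBody K → ProperEqui K →
    ∀ {V : ℝ}, (∀ s, IsSign s → volume.real (piece K s) ≤ V) →
      (4 : ℝ) ^ n / n.factorial ≤ 2 ^ n * V * volume.real (polarSet K) := by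
  intro n
  induction n with
  | zero =>
    intro K hK _ V hV
    have hu : K = univ := eq_univ_of_forall fun x => by
      rw [Subsingleton.elim x 0]; exact interior_subset hK.zero
    have hP : polarSet K = univ := eq_univ_of_forall fun y x _ => by simp
    have h1 := hV (fun i => i.elim0) fun i => i.elim0
    have h2 : piece K (fun i => i.elim0) = univ := eq_univ_of_forall fun y =>
      ⟨fun i => i.elim0, by rw [hu]; trivial⟩
    rw [h2] at h1
    simp [measureReal_def, MeasureTheory.volume_pi] at h1
    rw [hP]
    simpa [measureReal_def, MeasureTheory.volume_pi] using h1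
  | succ n ih =>
    intro K hK hE V hV
    set a : Fin (n + 1) → ℝ := fun i => volume.real (face K i)
    have hface : ∀ i, ∀ s, IsSign s → volume.real (piece (face K i) s) = a i / 2 ^ n :=
      fun i s hs => face_piece_volume hK hE i hs
    have hind : ∀ i, (4 : ℝ) ^ n / n.factorial ≤
        a i * volume.real (polarSet (face K i)) := by
      intro i
      have hE' : ProperEqui (face K i) := fun k hk e he s t hs ht => by
        rw [sect_succAbove K i he]
        exact hE k (Nat.lt_succ_of_lt hk) _ (Fin.succAbove_right_injective.comp he) s t hs ht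
      refine (ih (hK.face i) hE' fun s hs => (hface i s hs).le).trans_eq ?_
      rw [mul_div_cancel₀ _ (by positivity)]
    have hV0 : 0 < V := by
      have h := hK.volume_pos
      rw [← sum_pieces hK.compact] at h
      have h' := h.trans_le (Finset.sum_le_sum fun b _ => hV _ (isSign_sg b))
      simp only [Finset.sum_const, Finset.card_univ, nsmul_eq_mul] at h'
      exact pos_of_mul_pos_right h' (Nat.cast_nonneg _)
    set c : Fin (n + 1) → ℝ := fun i => a i / (2 ^ n * ((n + 1) * V)) with hc
    have hc0 : ∀ i, 0 ≤ c i := fun i => div_nonneg measureReal_nonneg (by positivity)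
    have hbox : ∀ x ∈ K, ∑ j, c j * |x j| ≤ 1 := by
      intro x hx
      set b : Fin (n + 1) → Bool := fun i => decide (0 ≤ x i)
      have hs := isSign_sg b
      have hz : (fun i => |x i|) ∈ piece K (sg b) := by
        refine ⟨fun i => abs_nonneg _, ?_⟩
        convert hx using 1
        funext i
        by_cases h : 0 ≤ x i
        · simp [sg, b, h, abs_of_nonneg h]
        · simp [sg, b, h, abs_of_neg (not_le.1 h)]
      have hcpt := piece_compact hK.compact hs
      have hp := pyramid (piece_conv hK.conv _) hcpt.measurableSet (fun z hz => hz.1) hz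
      have hsg : ∀ i : Fin (n + 1), IsSign fun j => sg b (i.succAbove j) := fun i j => hs _
      have hfin : ∀ i ∈ Finset.univ, ENNReal.ofReal |x i| *
          volume (face (piece K (sg b)) i) ≠ ⊤ := fun i _ => by
        rw [face_piece]
        exact ENNReal.mul_ne_top ENNReal.ofReal_ne_top
          (piece_compact (hK.face i).compact (hsg i)).measure_lt_top.ne
      have h' := ENNReal.toReal_mono
        (ENNReal.mul_ne_top ENNReal.ofReal_ne_top hcpt.measure_lt_top.ne) hp
      rw [ENNReal.toReal_sum hfin, ENNReal.toReal_mul, ENNReal.toReal_ofReal (by positivity),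
        ← measureReal_def] at h'
      have e : ∀ i, (ENNReal.ofReal |x i| * volume (face (piece K (sg b)) i)).toReal =
          |x i| * (a i / 2 ^ n) := fun i => by
        rw [ENNReal.toReal_mul, ENNReal.toReal_ofReal (abs_nonneg _), face_piece,
          ← measureReal_def, hface i _ (hsg i)]
      simp only [e] at h'
      have e2 : ∑ j, c j * |x j| = (∑ i, |x i| * (a i / 2 ^ n)) / ((n + 1) * V) := by
        rw [Finset.sum_div]
        exact Finset.sum_congr rfl fun i _ => by simp only [hc]; field_simp
      rw [e2, div_le_one (by positivity)]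
      exact h'.trans (mul_le_mul_of_nonneg_left (hV _ hs) (by positivity))
    have hmain := box_bound hK hc0 hbox
    set W := volume.real (polarSet K)
    have hsum : ((n : ℝ) + 1) * ((4 : ℝ) ^ n / n.factorial) / (2 ^ n * ((n + 1) * V)) ≤
        ∑ i, c i * volume.real (polarSet (face K i)) := by
      have h := Finset.sum_le_sum (s := Finset.univ) fun i _ => div_le_div_of_nonneg_right (hind i)
        (by positivity : (0 : ℝ) ≤ 2 ^ n * ((n + 1) * V))
      simp only [Finset.sum_const, Finset.card_univ, Fintype.card_fin, nsmul_eq_mul,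
        Nat.cast_succ] at h
      rw [mul_div_assoc]
      refine h.trans_eq (Finset.sum_congr rfl fun i _ => ?_)
      simp only [hc]
      ring
    have hnf : ((n + 1).factorial : ℝ) = (n + 1) * n.factorial := by
      rw [Nat.factorial_succ]; push_cast; ring
    have h1 : 2 * (((4 : ℝ) ^ n / n.factorial) / (2 ^ n * V)) ≤ ((n : ℝ) + 1) * W := by
      refine le_trans ?_ ((mul_le_mul_of_nonneg_left hsum zero_le_two).trans hmain)
      refine le_of_eq ?_
      field_simp
    rw [div_div, mul_div_assoc', div_le_iff₀ (by positivity)] at h1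
    rw [hnf, div_le_iff₀ (by positivity), pow_succ, pow_succ]
    nlinarith

/-- Sign change on the coordinates of a finite set. -/
def flipSet (T : Finset (Fin n)) (z : Fin n → ℝ) : Fin n → ℝ :=
  fun i => if i ∈ T then -z i else z i

lemma flipSet_insert {T : Finset (Fin n)} {j : Fin n} (hj : j ∉ T) (z : Fin n → ℝ) :
    flipSet (insert j T) z = flipSet {j} (flipSet T z) := by
  funext i
  rcases eq_or_ne i j with rfl | h <;> simp [flipSet, *]

lemma flipSet_comm (S T : Finset (Fin n)) (z : Fin n → ℝ) :
    flipSet S (flipSet T z) = flipSet T (flipSet S z) := by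
  funext i
  simp only [flipSet]
  split_ifs <;> rfl

lemma flipSet_self (T : Finset (Fin n)) (z : Fin n → ℝ) : flipSet T (flipSet T z) = z := by
  funext i
  simp only [flipSet]
  split_ifs <;> simp

lemma piece_flip (K : Set (Fin n → ℝ)) {s : Fin n → ℝ} (hs : IsSign s) :
    piece K s = {z | (∀ i, 0 ≤ z i) ∧ flipSet (Finset.univ.filter fun i => s i = -1) z ∈ K} := by
  have : ∀ z : Fin n → ℝ, (fun i => s i * z i) =
      flipSet (Finset.univ.filter fun i => s i = -1) z := fun z => by
    funext i
    rcases hs i with h | h <;> norm_num [flipSet, h]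
  ext z
  simp [piece, this]

/-- Invariance under pairs of sign changes makes the proper sections unconditional. -/
lemma pair_properEqui {K : Set (Fin n → ℝ)}
    (h : ∀ i j, i ≠ j → ∀ x ∈ K, flipSet {i, j} x ∈ K) : ProperEqui K := by
  intro k hk e he s t hs ht
  obtain ⟨m, hm⟩ : ∃ m, ∀ l, e l ≠ m := by
    by_contra hcon
    push Not at hcon
    have := Fintype.card_le_of_surjective e hcon
    simp at this
    omega
  have hone : ∀ l, ∀ a ∈ sect K e, flipSet {l} a ∈ sect K e := by
    intro l a ha
    show Function.extend e (flipSet {l} a) 0 ∈ K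
    convert h (e l) m (hm l) _ ha using 1
    funext j
    by_cases hj : ∃ p, e p = j
    · obtain ⟨p, rfl⟩ := hj
      rw [he.extend_apply]
      simp [flipSet, he.eq_iff, he.extend_apply, hm p]
    · rw [Function.extend_apply' _ _ _ hj]
      simp only [flipSet, Function.extend_apply' _ _ _ hj]
      simp
  have hall : ∀ T : Finset (Fin k), ∀ a, flipSet T a ∈ sect K e ↔ a ∈ sect K e := by
    intro T
    induction T using Finset.induction_on with
    | empty => intro a; simp +unfoldPartialApp [flipSet]
    | insert j T hj ih =>
      intro a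
      rw [flipSet_insert hj, ← ih a]
      exact ⟨fun h' => by simpa [flipSet_self] using hone j _ h', hone j _⟩
  simp only [piece_flip _ hs, piece_flip _ ht, hall]

/-- With pair invariance there are only two kinds of orthant pieces. -/
lemma pair_two_pieces {K : Set (Fin n → ℝ)}
    (h : ∀ i j, i ≠ j → ∀ x ∈ K, flipSet {i, j} x ∈ K) (i₀ : Fin n) {s : Fin n → ℝ}
    (hs : IsSign s) :
    (piece K s = piece K 1 ∧ piece K (fun i => if i = i₀ then -s i else s i) =
        piece K (fun i => if i = i₀ then -1 else 1)) ∨
      (piece K s = piece K (fun i => if i = i₀ then -1 else 1) ∧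
        piece K (fun i => if i = i₀ then -s i else s i) = piece K 1) := by
  have hswap : ∀ j, ∀ w, flipSet {j} w ∈ K ↔ flipSet {i₀} w ∈ K := by
    intro j w
    rcases eq_or_ne j i₀ with rfl | hj
    · rfl
    have e : flipSet {i₀, j} (flipSet {i₀} w) = flipSet {j} w := by
      funext i
      rcases eq_or_ne i i₀ with rfl | h1 <;> rcases eq_or_ne i j with rfl | h2 <;>
        simp_all [flipSet]
    constructor
    · intro hw
      rw [← flipSet_self {i₀, j} (flipSet {i₀} w), e]
      exact h _ _ hj.symm _ hw
    · intro hw
      rw [← e]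
      exact h _ _ hj.symm _ hw
  have hT : ∀ T : Finset (Fin n), (∀ w, flipSet T w ∈ K ↔ w ∈ K) ∨
      ∀ w, flipSet T w ∈ K ↔ flipSet {i₀} w ∈ K := by
    intro T
    induction T using Finset.induction_on with
    | empty => left; intro w; simp +unfoldPartialApp [flipSet]
    | insert j T hj ih =>
      rcases ih with ih | ih
      · refine Or.inr fun w => ?_
        rw [flipSet_insert hj, hswap, flipSet_comm, ih]
      · refine Or.inl fun w => ?_
        rw [flipSet_insert hj, hswap, flipSet_comm, ih, flipSet_self]
  set s' : Fin n → ℝ := fun i => if i = i₀ then -s i else s i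
  have hfun : ∀ z : Fin n → ℝ, (fun i => s i * z i) =
      flipSet (Finset.univ.filter fun i => s i = -1) z := fun z => by
    funext i
    rcases hs i with h1 | h1 <;> norm_num [flipSet, h1]
  have hfun' : ∀ z : Fin n → ℝ, (fun i => s' i * z i) =
      flipSet {i₀} (flipSet (Finset.univ.filter fun i => s i = -1) z) := fun z => by
    rw [← hfun]
    funext i
    by_cases hi : i = i₀ <;> simp [s', flipSet, hi]
  have hfun1 : ∀ z : Fin n → ℝ, (fun i => (if i = i₀ then (-1 : ℝ) else 1) * z i) =
      flipSet {i₀} z := fun z => by
    funext i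
    by_cases hi : i = i₀ <;> simp [flipSet, hi]
  simp only [piece, hfun, hfun', hfun1, Pi.one_apply, one_mul]
  rcases hT (Finset.univ.filter fun i => s i = -1) with hh | hh
  · left
    constructor
    · ext z; simp only [mem_ofPred_eq, hh]
    · ext z
      simp only [mem_ofPred_eq]
      rw [flipSet_comm, hh]
  · right
    constructor
    · ext z; simp only [mem_ofPred_eq, hh]
    · ext z
      simp only [mem_ofPred_eq]
      rw [flipSet_comm, hh, flipSet_self]

end Vale.Agent.P248
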