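import Mathlib

/-!
Gauges on finite-dimensional spaces: sublevel volumes, dual gauges, and pushforwards of
products of Lebesgue measures.
-/

namespace Vale.Agent.P248

open MeasureTheory Set
open scoped ENNReal Pointwise

variable {d : ℕ}

/-- A continuous, definite, positively homogeneous nonnegative function. -/
structure Gauge (f : (Fin d → ℝ) → ℝ) : Prop where
  cont : Continuous f
  nonneg : ∀ x, 0 ≤ f x
  hom : ∀ (t : ℝ) x, 0 ≤ t → f (t • x) = t * f x
  definite : ∀ x, f x = 0 → x = 0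

lemma Gauge.zero {f : (Fin d → ℝ) → ℝ} (hf : Gauge f) : f 0 = 0 := by
  simpa using hf.hom 0 0 le_rfl

lemma Gauge.isCompact_le {f : (Fin d → ℝ) → ℝ} (hf : Gauge f) (t : ℝ) :
    IsCompact {x | f x ≤ t} := by
  refine Metric.isCompact_of_isClosed_isBounded (isClosed_le hf.cont continuous_const) ?_
  rcases (Metric.sphere (0 : Fin d → ℝ) 1).eq_empty_or_nonempty with he | hne
  · refine Bornology.IsBounded.subset (Bornology.isBounded_singleton (x := (0 : Fin d → ℝ)))
      fun x _ => ?_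
    by_contra hx
    have : ‖x‖⁻¹ • x ∈ Metric.sphere (0 : Fin d → ℝ) 1 :=
      mem_sphere_zero_iff_norm.2 (norm_smul_inv_norm hx)
    simp [he] at this
  obtain ⟨u, hu, hmin⟩ := (isCompact_sphere (0 : Fin d → ℝ) 1).exists_isMinOn hne hf.cont.continuousOn
  have hu0 : 0 < f u := (hf.nonneg u).lt_of_ne fun h => by
    simp [hf.definite u h.symm] at hu
  refine Bornology.IsBounded.subset Metric.isBounded_closedBall (fun x hx => ?_)
    (t := Metric.closedBall (0 : Fin d → ℝ) (max t 0 / f u))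
  rw [mem_closedBall_zero_iff]
  rcases eq_or_ne x 0 with rfl | hx0
  · simpa using div_nonneg (le_max_right t 0) hu0.le
  have hnx : 0 < ‖x‖ := norm_pos_iff.2 hx0
  have h := hmin (mem_sphere_zero_iff_norm.2 (norm_smul_inv_norm hx0) :
    ‖x‖⁻¹ • x ∈ Metric.sphere (0 : Fin d → ℝ) 1)
  have h' : f u ≤ ‖x‖⁻¹ * f x := by rw [← hf.hom _ _ (by positivity)]; exact h
  rw [le_div_iff₀ hu0]
  have : ‖x‖ * f u ≤ f x := by
    rwa [inv_mul_eq_div, le_div_iff₀ hnx, mul_comm] at h'
  exact this.trans ((show f x ≤ t from hx).trans (le_max_left _ _))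

lemma Gauge.unit_lt_top {f : (Fin d → ℝ) → ℝ} (hf : Gauge f) : volume {x | f x ≤ 1} < ⊤ :=
  (hf.isCompact_le 1).measure_lt_top

lemma Gauge.unit_pos {f : (Fin d → ℝ) → ℝ} (hf : Gauge f) : 0 < volume {x | f x ≤ 1} :=
  ((isOpen_lt hf.cont continuous_const).measure_pos volume ⟨0, by simp [hf.zero]⟩).trans_le
    (measure_mono fun x (hx : f x < 1) => (show f x ≤ 1 from hx.le))

lemma Gauge.volume_le {f : (Fin d → ℝ) → ℝ} (hf : Gauge f) (t : ℝ) :
    volume {x | f x ≤ t} =
      if 0 ≤ t then ENNReal.ofReal (t ^ d) * volume {x | f x ≤ 1} else 0 := by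
  split_ifs with ht
  · have h : {x | f x ≤ t} = t • {x | f x ≤ 1} := by
      ext x
      constructor
      · intro hx
        rcases ht.eq_or_lt with rfl | htpos
        · exact ⟨0, by simp [hf.zero],
            by simp [hf.definite x (le_antisymm hx (hf.nonneg x))]⟩
        · refine ⟨t⁻¹ • x, ?_, smul_inv_smul₀ htpos.ne' x⟩
          show f (t⁻¹ • x) ≤ 1
          rw [hf.hom _ _ (by positivity), inv_mul_eq_div, div_le_one htpos]
          exact hx
      · rintro ⟨y, hy, rfl⟩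
        show f (t • y) ≤ t
        rw [hf.hom _ _ ht]
        exact mul_le_of_le_one_right ht hy
    rw [h, Measure.addHaar_smul_of_nonneg volume ht]
    simp
  · refine measure_mono_null (t := (∅ : Set (Fin d → ℝ))) (fun x hx => ?_) measure_empty
    exact ht ((hf.nonneg x).trans hx)

lemma Gauge.map_Iic {f : (Fin d → ℝ) → ℝ} (hf : Gauge f) (t : ℝ) :
    (volume.map f) (Iic t) =
      if 0 ≤ t then ENNReal.ofReal (t ^ d) * volume {x | f x ≤ 1} else 0 := by
  rw [Measure.map_apply hf.cont.measurable measurableSet_Iic, ← hf.volume_le t]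
  rfl

lemma ext_Iic_real {μ ν : Measure ℝ} (hfin : ∀ t, μ (Iic t) ≠ ⊤)
    (h : ∀ t, μ (Iic t) = ν (Iic t)) : μ = ν := by
  refine Measure.ext_of_Ioc' μ ν
    (fun a b _ => ne_top_of_le_ne_top (hfin b) (measure_mono Ioc_subset_Iic_self)) fun a b hab => ?_
  rw [← Iic_sdiff_Iic, measure_sdiff (Iic_subset_Iic.2 hab.le) nullMeasurableSet_Iic (hfin a),
    measure_sdiff (Iic_subset_Iic.2 hab.le) nullMeasurableSet_Iic (h a ▸ hfin a), h a, h b]

/-- Two gauges push Lebesgue measure forward to proportional measures. -/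
lemma Gauge.map_eq {f g : (Fin d → ℝ) → ℝ} (hf : Gauge f) (hg : Gauge g) :
    volume {x | g x ≤ 1} • volume.map f = volume {x | f x ≤ 1} • volume.map g := by
  refine ext_Iic_real (fun t => ?_) fun t => ?_
  · rw [Measure.smul_apply, smul_eq_mul, hf.map_Iic]
    split_ifs
    · exact ENNReal.mul_ne_top hg.unit_lt_top.ne
        (ENNReal.mul_ne_top ENNReal.ofReal_ne_top hf.unit_lt_top.ne)
    · simp
  · simp only [Measure.smul_apply, smul_eq_mul, hf.map_Iic, hg.map_Iic]
    split_ifs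
    · ring
    · simp

lemma Gauge.sigmaFinite_map {f : (Fin d → ℝ) → ℝ} (hf : Gauge f) :
    SigmaFinite (volume.map f) := by
  refine ⟨⟨⟨fun k => Iic (k : ℝ), fun _ => trivial, fun k => ?_, ?_⟩⟩⟩
  · rw [hf.map_Iic, if_pos (Nat.cast_nonneg k)]
    exact ENNReal.mul_lt_top ENNReal.ofReal_lt_top hf.unit_lt_top
  · exact iUnion_eq_univ_iff.2 fun x => exists_nat_ge x

lemma pi_smul_measure {ι : Type*} [Fintype ι] {X : ι → Type*} [∀ i, MeasurableSpace (X i)]
    (c : ι → ℝ≥0∞) (hc : ∀ i, c i ≠ ⊤) (μ : ∀ i, Measure (X i)) [∀ i, SigmaFinite (μ i)] :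
    Measure.pi (fun i => c i • μ i) = (∏ i, c i) • Measure.pi μ := by
  have : ∀ i, SigmaFinite (c i • μ i) := fun i => by
    have h : c i • μ i = (c i).toNNReal • μ i := by
      conv_lhs => rw [← ENNReal.coe_toNNReal (hc i)]
      rfl
    rw [h]
    infer_instance
  refine Measure.pi_eq fun s _ => ?_
  simp [Measure.pi_pi, Finset.prod_mul_distrib]

/-- Volumes of amalgams depend on the blocks only through their unit volumes. -/
lemma amalgam_scale {ι : Type*} [Fintype ι] {e : ι → ℕ} {f g : ∀ i, (Fin (e i) → ℝ) → ℝ}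
    (hf : ∀ i, Gauge (f i)) (hg : ∀ i, Gauge (g i)) {S : Set (ι → ℝ)} (hS : MeasurableSet S) :
    (∏ i, volume {x | g i x ≤ 1}) *
        volume {x : ∀ i, Fin (e i) → ℝ | (fun i => f i (x i)) ∈ S} =
      (∏ i, volume {x | f i x ≤ 1}) *
        volume {x : ∀ i, Fin (e i) → ℝ | (fun i => g i (x i)) ∈ S} := by
  have key : ∀ {h : ∀ i, (Fin (e i) → ℝ) → ℝ}, (∀ i, Gauge (h i)) →
      volume {x : ∀ i, Fin (e i) → ℝ | (fun i => h i (x i)) ∈ S} =
        Measure.pi (fun i => volume.map (h i)) S := by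
    intro h hh
    have := fun i => (hh i).sigmaFinite_map
    have hm : Measurable fun (x : ∀ i, Fin (e i) → ℝ) i => h i (x i) :=
      measurable_pi_lambda _ fun i => (hh i).cont.measurable.comp (measurable_pi_apply i)
    rw [← Measure.pi_map_pi fun i => (hh i).cont.measurable.aemeasurable,
      Measure.map_apply hm hS]
    rfl
  have := fun i => (hf i).sigmaFinite_map
  have := fun i => (hg i).sigmaFinite_map
  rw [key hf, key hg, ← smul_eq_mul, ← smul_eq_mul, ← Measure.smul_apply, ← Measure.smul_apply,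
    ← pi_smul_measure _ (fun i => (hg i).unit_lt_top.ne),
    ← pi_smul_measure _ (fun i => (hf i).unit_lt_top.ne)]
  congr 2
  funext i
  exact (hf i).map_eq (hg i)

/-- The dual gauge. -/
noncomputable def dual (f : (Fin d → ℝ) → ℝ) (y : Fin d → ℝ) : ℝ :=
  sSup ((fun x => ∑ j, x j * y j) '' {x | f x ≤ 1})

lemma Gauge.dual_attained {f : (Fin d → ℝ) → ℝ} (hf : Gauge f) (y : Fin d → ℝ) :
    (∃ x, f x ≤ 1 ∧ ∑ j, x j * y j = dual f y) ∧
      ∀ x, f x ≤ 1 → ∑ j, x j * y j ≤ dual f y := by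
  have hc : Continuous fun x : Fin d → ℝ => ∑ j, x j * y j := by fun_prop
  have hK := (hf.isCompact_le 1).image hc
  refine ⟨?_, fun x hx => le_csSup hK.bddAbove ⟨x, hx, rfl⟩⟩
  obtain ⟨x, hx, hxy⟩ := hK.sSup_mem ⟨_, 0, by simp [hf.zero], rfl⟩
  exact ⟨x, hx, hxy⟩

lemma Gauge.pairing_le {f : (Fin d → ℝ) → ℝ} (hf : Gauge f) {t : ℝ}
    {x : Fin d → ℝ} (hx : f x ≤ t) (y : Fin d → ℝ) : ∑ j, x j * y j ≤ t * dual f y := by
  rcases ((hf.nonneg x).trans hx).eq_or_lt with ht | ht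
  · subst ht
    simp [hf.definite x (le_antisymm hx (hf.nonneg x))]
  have h := (hf.dual_attained y).2 (t⁻¹ • x) (by
    rw [hf.hom _ _ (by positivity), inv_mul_eq_div, div_le_one ht]; exact hx)
  simp only [Pi.smul_apply, smul_eq_mul, mul_assoc, ← Finset.mul_sum] at h
  rwa [inv_mul_eq_div, div_le_iff₀ ht, mul_comm (dual f y)] at h

lemma Gauge.dual {f : (Fin d → ℝ) → ℝ} (hf : Gauge f) : Gauge (Vale.Agent.P248.dual f) := by
  have hnn : ∀ y, 0 ≤ Vale.Agent.P248.dual f y := fun y => by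
    simpa using (hf.dual_attained y).2 0 (by simp [hf.zero])
  refine ⟨?_, hnn, fun t y ht => ?_, fun y hy => ?_⟩
  · exact (hf.isCompact_le 1).continuous_sSup (f := fun (y x : Fin d → ℝ) => ∑ j, x j * y j)
      (by fun_prop)
  · obtain ⟨⟨x, hx, hxy⟩, hle⟩ := hf.dual_attained y
    obtain ⟨⟨z, hz, hzy⟩, hle'⟩ := hf.dual_attained (t • y)
    simp only [Pi.smul_apply, smul_eq_mul, mul_left_comm _ t, ← Finset.mul_sum] at hzy hle'
    exact le_antisymm (hzy ▸ mul_le_mul_of_nonneg_left (hle z hz) ht) (hxy ▸ hle' x hx)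
  · have h := hf.pairing_le (le_refl (f y)) y
    rw [hy, mul_zero] at h
    have h' := (Finset.sum_eq_zero_iff_of_nonneg fun j _ => mul_self_nonneg (y j)).1
      (le_antisymm h (Finset.sum_nonneg fun j _ => mul_self_nonneg (y j)))
    funext j
    simpa using h' j (Finset.mem_univ j)

lemma Gauge.dual_le_iff {f : (Fin d → ℝ) → ℝ} (hf : Gauge f) (y : Fin d → ℝ) :
    Vale.Agent.P248.dual f y ≤ 1 ↔ ∀ x, f x ≤ 1 → ∑ j, x j * y j ≤ 1 :=
  ⟨fun h x hx => ((hf.dual_attained y).2 x hx).trans h, fun h => by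
    obtain ⟨x, hx, hxy⟩ := (hf.dual_attained y).1
    exact hxy ▸ h x hx⟩

/-- A definite seminorm is a gauge. -/
lemma gauge_of_seminorm (p : Seminorm ℝ (Fin d → ℝ)) (hp : ∀ x, p x = 0 → x = 0) :
    Gauge p := by
  refine ⟨?_, fun x => apply_nonneg p x, fun t x ht => ?_, hp⟩
  · rw [← continuousOn_univ]
    exact p.convexOn.continuousOn isOpen_univ
  · rw [map_smul_eq_mul, Real.norm_of_nonneg ht]

lemma gauge_sup : Gauge (fun x : Fin d → ℝ => ‖x‖) :=
  ⟨continuous_norm, fun x => norm_nonneg x,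
    fun t x ht => by rw [norm_smul, Real.norm_of_nonneg ht], fun _ h => norm_eq_zero.1 h⟩

lemma gauge_l1 : Gauge (fun x : Fin d → ℝ => ∑ j, |x j|) := by
  refine ⟨by fun_prop, fun x => Finset.sum_nonneg fun j _ => abs_nonneg _, fun t x ht => ?_,
    fun x h => funext fun j => ?_⟩
  · simp [abs_mul, abs_of_nonneg ht, Finset.mul_sum]
  · exact abs_eq_zero.1 ((Finset.sum_eq_zero_iff_of_nonneg fun j _ => abs_nonneg _).1 h j
      (Finset.mem_univ j))

lemma volume_sup_unit : volume {x : Fin d → ℝ | ‖x‖ ≤ 1} = ENNReal.ofReal ((2 : ℝ) ^ d) := by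
  have : {x : Fin d → ℝ | ‖x‖ ≤ 1} = Metric.closedBall 0 1 := by ext; simp
  rw [this, Real.volume_pi_closedBall _ zero_le_one]
  simp

lemma volume_l1_unit : volume {x : Fin d → ℝ | ∑ j, |x j| ≤ 1} =
    ENNReal.ofReal ((2 : ℝ) ^ d / d.factorial) := by
  rcases Nat.eq_zero_or_pos d with rfl | hd
  · simp [MeasureTheory.volume_pi]
  have : Nonempty (Fin d) := ⟨⟨0, hd⟩⟩
  have h := volume_sum_rpow_le (ι := Fin d) le_rfl 1
  simpa [Real.Gamma_nat_eq_factorial, show Real.Gamma 2 = 1 by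
    simpa using Real.Gamma_nat_eq_factorial 1, one_add_one_eq_two] using h

end Vale.Agent.P248
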