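import Vale.Agent.P248.Orthant
import Vale.Agent.P248.Radial

/-!
Unconditional amalgams of cubes and cross-polytopes as polar down-sets of an orthant.
-/

namespace Vale.Agent.P248

open MeasureTheory Set
open scoped ENNReal

variable {ι : Type*} [Fintype ι]

/-- The polar of a down-set inside the orthant. -/
def polarPlus (C : Set (ι → ℝ)) : Set (ι → ℝ) :=
  {s | (∀ i, 0 ≤ s i) ∧ ∀ t ∈ C, ∑ i, s i * t i ≤ 1}

/-- A compact convex down-set of the orthant with a positive point. -/
structure Pattern (C : Set (ι → ℝ)) : Prop where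
  compact : IsCompact C
  conv : Convex ℝ C
  nonneg : ∀ t ∈ C, ∀ i, 0 ≤ t i
  down : ∀ t ∈ C, ∀ s : ι → ℝ, (∀ i, 0 ≤ s i) → (∀ i, s i ≤ t i) → s ∈ C
  pos : ∃ t ∈ C, ∀ i, 0 < t i

lemma Pattern.zero_mem {C : Set (ι → ℝ)} (hC : Pattern C) : (0 : ι → ℝ) ∈ C := by
  obtain ⟨t, ht, hpos⟩ := hC.pos
  exact hC.down t ht 0 (fun _ => le_rfl) fun i => (hpos i).le

lemma polarPlus_compact {C : Set (ι → ℝ)} (hC : Pattern C) : IsCompact (polarPlus C) := by
  have hcl : IsClosed (polarPlus C) := by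
    have : polarPlus C = (⋂ i, {s | 0 ≤ s i}) ∩ ⋂ t ∈ C, {s | ∑ i, s i * t i ≤ 1} := by
      ext; simp [polarPlus]
    rw [this]
    exact (isClosed_iInter fun i => isClosed_le continuous_const (continuous_apply i)).inter
      (isClosed_biInter fun t _ => isClosed_le (by fun_prop) continuous_const)
  obtain ⟨t, ht, hpos⟩ := hC.pos
  refine Metric.isCompact_of_isClosed_isBounded hcl
    ((Metric.isBounded_closedBall (x := (0 : ι → ℝ)) (r := ∑ i, (t i)⁻¹)).subset fun s hs => ?_)
  rw [mem_closedBall_zero_iff,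
    pi_norm_le_iff_of_nonneg (Finset.sum_nonneg fun i _ => inv_nonneg.2 (hpos i).le)]
  intro i
  rw [Real.norm_of_nonneg (hs.1 i)]
  have h := (Finset.single_le_sum (fun j _ => mul_nonneg (hs.1 j) (hpos j).le)
    (Finset.mem_univ i)).trans (hs.2 t ht)
  calc s i ≤ (t i)⁻¹ := by rw [← one_div, le_div_iff₀ (hpos i)]; exact h
    _ ≤ _ := Finset.single_le_sum (fun j _ => inv_nonneg.2 (hpos j).le) (Finset.mem_univ i)

lemma polarPlus_conv (C : Set (ι → ℝ)) : Convex ℝ (polarPlus C) := by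
  rintro s hs s' hs' u v hu hv huv
  refine ⟨fun i => add_nonneg (mul_nonneg hu (hs.1 i)) (mul_nonneg hv (hs'.1 i)), fun t ht => ?_⟩
  have h : ∑ i, (u • s + v • s') i * t i = u * ∑ i, s i * t i + v * ∑ i, s' i * t i := by
    simp [Finset.mul_sum, ← Finset.sum_add_distrib, add_mul, mul_assoc]
  rw [h]
  nlinarith [mul_le_mul_of_nonneg_left (hs.2 t ht) hu, mul_le_mul_of_nonneg_left (hs'.2 t ht) hv]

lemma polarPlus_down {C : Set (ι → ℝ)} (hC : Pattern C) :
    ∀ t ∈ polarPlus C, ∀ s : ι → ℝ, (∀ i, 0 ≤ s i) → (∀ i, s i ≤ t i) → s ∈ polarPlus C :=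
  fun _ ht _ hs hst => ⟨hs, fun r hr => le_trans (Finset.sum_le_sum fun i _ =>
    mul_le_mul_of_nonneg_right (hst i) (hC.nonneg r hr i)) (ht.2 r hr)⟩

/-- Bipolarity. -/
lemma Pattern.bipolar {C : Set (ι → ℝ)} (hC : Pattern C) {t : ι → ℝ} (ht : ∀ i, 0 ≤ t i)
    (h : ∀ s ∈ polarPlus C, ∑ i, s i * t i ≤ 1) : t ∈ C := by
  classical
  by_contra hnot
  obtain ⟨f, u, hlt, hft⟩ := geometric_hahn_banach_closed_point hC.conv hC.compact.isClosed hnot
  have hu : 0 < u := by simpa using hlt 0 hC.zero_mem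
  set c : ι → ℝ := fun i => f (fun j => if i = j then 1 else 0)
  have hf : ∀ z, f z = ∑ i, z i * c i := fun z => by
    conv_lhs => rw [pi_eq_sum_univ z]
    simp [map_sum, c]
  set s : ι → ℝ := fun i => max (c i) 0 / u
  have hs : s ∈ polarPlus C := by
    refine ⟨fun i => by positivity, fun r hr => ?_⟩
    have hr' : (fun i => if 0 < c i then r i else 0) ∈ C := hC.down r hr _
      (fun i => by split_ifs <;> simp [hC.nonneg r hr i])
      (fun i => by split_ifs <;> simp [hC.nonneg r hr i])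
    have h1 := hlt _ hr'
    rw [hf] at h1
    have h2 : ∑ i, s i * r i = (∑ i, (if 0 < c i then r i else 0) * c i) / u := by
      rw [Finset.sum_div]
      refine Finset.sum_congr rfl fun i _ => ?_
      simp only [s]
      split_ifs with hci
      · rw [max_eq_left hci.le]; ring
      · rw [max_eq_right (not_lt.1 hci)]; ring
    rw [h2, div_le_one hu]
    exact h1.le
  have h3 : f t / u ≤ ∑ i, s i * t i := by
    rw [hf, Finset.sum_div]
    refine Finset.sum_le_sum fun i _ => ?_
    simp only [s]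
    rw [div_mul_eq_mul_div, mul_comm (t i)]
    gcongr
    · exact ht i
    · exact le_max_left _ _
  exact absurd (h3.trans (h s hs)) (not_le.2 ((one_lt_div hu).2 hft))

variable {d : ι → ℕ} {n : ℕ} (e : Fin n ≃ Σ i, Fin (d i))

/-- The blocks of a vector. -/
def blocks (z : Fin n → ℝ) (i : ι) (j : Fin (d i)) : ℝ := z (e.symm ⟨i, j⟩)

lemma measurePreserving_blocks :
    MeasurePreserving (blocks e) (volume : Measure (Fin n → ℝ))
      (volume : Measure (∀ i, Fin (d i) → ℝ)) := by
  have h1 : MeasurePreserving (MeasurableEquiv.piCurry fun i (_ : Fin (d i)) => ℝ).symm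
      (volume : Measure (∀ i, Fin (d i) → ℝ)) (volume : Measure ((Σ i, Fin (d i)) → ℝ)) := by
    refine ⟨MeasurableEquiv.measurable _, (Measure.pi_eq fun s _ => ?_).symm⟩
    rw [MeasurableEquiv.map_apply, show (MeasurableEquiv.piCurry fun i (_ : Fin (d i)) => ℝ).symm ⁻¹'
      (Set.univ.pi s) = Set.univ.pi fun i => Set.univ.pi fun j => s ⟨i, j⟩ by
        ext x; simp [Sigma.forall, Sigma.uncurry],
      volume_pi, Measure.pi_pi, Fintype.prod_sigma]
    simp [volume_pi, Measure.pi_pi]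
  have h2 := volume_measurePreserving_piCongrLeft (fun _ : Σ i, Fin (d i) => ℝ) e
  have h3 : blocks e = (MeasurableEquiv.piCurry fun i (_ : Fin (d i)) => ℝ) ∘
      (MeasurableEquiv.piCongrLeft (fun _ : Σ i, Fin (d i) => ℝ) e) := by
    funext z i j
    simp [blocks, Sigma.curry, MeasurableEquiv.coe_piCongrLeft, Equiv.piCongrLeft_apply_eq_cast]
  rw [h3]
  exact (MeasurePreserving.symm _ h1).comp h2

/-- The amalgam of cubes in the orthant. -/
def cubeSet (C : Set (ι → ℝ)) : Set (Fin n → ℝ) :=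
  {z | (∀ k, 0 ≤ z k) ∧ (fun i => ‖blocks e z i‖) ∈ C}

/-- The amalgam of cross-polytopes in the orthant. -/
def crossSet (C : Set (ι → ℝ)) : Set (Fin n → ℝ) :=
  {z | (∀ k, 0 ≤ z k) ∧ (fun i => ∑ j, |blocks e z i j|) ∈ polarPlus C}

lemma sum_blocks (x y : Fin n → ℝ) :
    ∑ k, x k * y k = ∑ i, ∑ j, blocks e x i j * blocks e y i j := by
  rw [← Fintype.sum_sigma', ← e.symm.sum_comp fun k => x k * y k]
  rfl

lemma downBody_of {S : Set (ι → ℝ)} (hc : IsCompact S) (hconv : Convex ℝ S)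
    (hdown : ∀ t ∈ S, ∀ s : ι → ℝ, (∀ i, 0 ≤ s i) → (∀ i, s i ≤ t i) → s ∈ S)
    (g : ∀ i, (Fin (d i) → ℝ) → ℝ) (hgc : ∀ i, Continuous (g i)) (hg0 : ∀ i x, 0 ≤ g i x)
    (hgconv : ∀ i, ConvexOn ℝ univ (g i)) (hgb : ∀ i x j, |x j| ≤ g i x)
    (hgm : ∀ i x y, (∀ j, 0 ≤ x j) → (∀ j, x j ≤ y j) → g i x ≤ g i y) :
    DownBody {z : Fin n → ℝ | (∀ k, 0 ≤ z k) ∧ (fun i => g i (blocks e z i)) ∈ S} := by
  refine ⟨fun z hz => hz.1, ?_, ?_, fun z hz y hy hyz => ?_⟩
  · intro z hz w hw u v hu hv huv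
    refine ⟨fun k => add_nonneg (mul_nonneg hu (hz.1 k)) (mul_nonneg hv (hw.1 k)), ?_⟩
    refine hdown _ (hconv hz.2 hw.2 hu hv huv) _ (fun i => hg0 _ _) fun i => ?_
    have h : blocks e (u • z + v • w) i = u • blocks e z i + v • blocks e w i := rfl
    rw [h]
    exact (hgconv i).2 trivial trivial hu hv huv
  · have hcl : IsClosed {z : Fin n → ℝ | (∀ k, 0 ≤ z k) ∧ (fun i => g i (blocks e z i)) ∈ S} := by
      refine IsClosed.inter ?_ (hc.isClosed.preimage ?_)
      · show IsClosed {z : Fin n → ℝ | ∀ k, 0 ≤ z k}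
        rw [show {z : Fin n → ℝ | ∀ k, 0 ≤ z k} = ⋂ k, {z | 0 ≤ z k} by ext; simp]
        exact isClosed_iInter fun k => isClosed_le continuous_const (continuous_apply k)
      · exact continuous_pi fun i => (hgc i).comp (continuous_pi fun j => continuous_apply _)
    obtain ⟨M, hM⟩ := hc.isBounded.exists_norm_le
    refine Metric.isCompact_of_isClosed_isBounded hcl
      ((Metric.isBounded_closedBall (x := (0 : Fin n → ℝ)) (r := max M 0)).subset fun z hz => ?_)
    rw [mem_closedBall_zero_iff, pi_norm_le_iff_of_nonneg (le_max_right _ _)]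
    intro k
    have h := hgb (e k).1 (blocks e z (e k).1) (e k).2
    have hb : blocks e z (e k).1 (e k).2 = z k := by simp [blocks]
    rw [hb] at h
    exact h.trans ((Real.le_norm_self _).trans
      ((norm_le_pi_norm (fun i => g i (blocks e z i)) (e k).1).trans
        ((hM _ hz.2).trans (le_max_left _ _))))
  · exact ⟨hy, hdown _ hz.2 _ (fun i => hg0 _ _) fun i =>
      hgm i _ _ (fun j => hy _) fun j => hyz _⟩

lemma cubeSet_down {C : Set (ι → ℝ)} (hC : Pattern C) : DownBody (cubeSet e C) :=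
  downBody_of e hC.compact hC.conv hC.down (fun _ x => ‖x‖) (fun _ => continuous_norm)
    (fun _ x => norm_nonneg x) (fun _ => convexOn_univ_norm) (fun _ x j => norm_le_pi_norm x j)
    fun _ x y hx hxy => (pi_norm_le_iff_of_nonneg (norm_nonneg y)).2 fun j => by
      rw [Real.norm_of_nonneg (hx j)]
      exact (hxy j).trans ((Real.le_norm_self _).trans (norm_le_pi_norm y j))

lemma crossSet_down {C : Set (ι → ℝ)} (hC : Pattern C) : DownBody (crossSet e C) :=
  downBody_of e (polarPlus_compact hC) (polarPlus_conv C) (polarPlus_down hC)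
    (fun _ x => ∑ j, |x j|) (fun _ => by fun_prop)
    (fun _ x => Finset.sum_nonneg fun j _ => abs_nonneg _)
    (fun i => ⟨convex_univ, fun x _ y _ u v hu hv _ => by
      simp only [smul_eq_mul, Finset.mul_sum, ← Finset.sum_add_distrib, Pi.add_apply, Pi.smul_apply]
      refine Finset.sum_le_sum fun j _ => (abs_add_le _ _).trans (le_of_eq ?_)
      rw [abs_mul, abs_mul, abs_of_nonneg hu, abs_of_nonneg hv]⟩)
    (fun _ x j => Finset.single_le_sum (fun k _ => abs_nonneg (x k)) (Finset.mem_univ j))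
    fun _ x y hx hxy => Finset.sum_le_sum fun j _ => by
      rw [abs_of_nonneg (hx j)]
      exact (hxy j).trans (le_abs_self _)

lemma cross_contains {C : Set (ι → ℝ)} (hC : Pattern C) :
    ContainsPolar (cubeSet e C) (crossSet e C) := by
  intro y hy hle
  refine ⟨hy, fun i => Finset.sum_nonneg fun j _ => abs_nonneg _, fun t ht => ?_⟩
  have hm := hle (fun k => t (e k).1) ⟨fun k => hC.nonneg t ht _, hC.down t ht _
    (fun i => norm_nonneg _) fun i => (pi_norm_le_iff_of_nonneg (hC.nonneg t ht i)).2 fun j => by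
      simp [blocks, abs_of_nonneg (hC.nonneg t ht i)]⟩
  rw [sum_blocks e] at hm
  refine le_of_eq_of_le (Finset.sum_congr rfl fun i _ => ?_) hm
  rw [Finset.sum_mul]
  refine Finset.sum_congr rfl fun j _ => ?_
  simp [blocks, abs_of_nonneg (hy _), mul_comm]

lemma cube_contains {C : Set (ι → ℝ)} (hC : Pattern C) :
    ContainsPolar (crossSet e C) (cubeSet e C) := by
  classical
  intro x hx hle
  refine ⟨hx, hC.bipolar (fun i => norm_nonneg _) fun s hs => ?_⟩
  have harg : ∀ i, ∃ w : Fin (d i) → ℝ, (∀ j, 0 ≤ w j) ∧ ∑ j, w j ≤ 1 ∧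
      ‖blocks e x i‖ = ∑ j, blocks e x i j * w j := by
    intro i
    rcases isEmpty_or_nonempty (Fin (d i)) with hem | hne
    · exact ⟨0, fun _ => le_rfl, by simp,
        by rw [Subsingleton.elim (blocks e x i) 0]; simp⟩
    obtain ⟨j, hj⟩ := Finite.exists_max (blocks e x i)
    refine ⟨Pi.single j 1, fun k => by simp [Pi.single_apply]; split_ifs <;> norm_num,
      le_of_eq (Finset.sum_pi_single' j _ _ |>.trans (by simp)), ?_⟩
    simp only [Pi.single_apply, mul_ite, mul_one, mul_zero, Finset.sum_ite_eq', Finset.mem_univ,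
      if_true]
    refine le_antisymm ((pi_norm_le_iff_of_nonneg (hx _)).2 fun k => ?_)
      ((Real.le_norm_self _).trans (norm_le_pi_norm _ j))
    exact (Real.norm_of_nonneg (hx _)).trans_le (hj k)
  choose w hw0 hw1 hw using harg
  have hm := hle (fun k => s (e k).1 * w (e k).1 (e k).2)
    ⟨fun k => mul_nonneg (hs.1 _) (hw0 _ _), polarPlus_down hC s hs _
      (fun i => Finset.sum_nonneg fun j _ => abs_nonneg _) fun i => by
        have : ∀ j, blocks e (fun k => s (e k).1 * w (e k).1 (e k).2) i j = s i * w i j := by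
          intro j
          simp only [blocks]
          rw [e.apply_symm_apply]
        simp only [this, abs_of_nonneg (mul_nonneg (hs.1 i) (hw0 i _)), ← Finset.mul_sum]
        exact mul_le_of_le_one_right (hs.1 i) (hw1 i)⟩
  rw [sum_blocks e] at hm
  refine le_of_eq_of_le (Finset.sum_congr rfl fun i _ => ?_) hm
  rw [hw i, Finset.mul_sum]
  refine Finset.sum_congr rfl fun j _ => ?_
  simp only [blocks]
  rw [e.apply_symm_apply]
  ring

end Vale.Agent.P248
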