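import Vale.Agent.P248.Equipartition

/-!
Merging two adjacent orthants: bodies invariant under sign changes of pairs of coordinates satisfy
Mahler's inequality up to the factor `1 - 1 / n`.
-/

namespace Vale.Agent.P248

open MeasureTheory Set
open scoped ENNReal Pointwise

variable {n : ℕ}

/-- The cone over the face opposite to `i`, measured only in the coordinates of `T`. -/
def wedgeOn (T : Finset (Fin (n + 1))) (x : Fin (n + 1) → ℝ) (i : Fin (n + 1)) :
    Set (Fin (n + 1) → ℝ) :=
  {z | ∀ j ∈ T, z i * x j ≤ z j * x i}

lemma wedgeOn_measurable (T : Finset (Fin (n + 1))) (x : Fin (n + 1) → ℝ) (i : Fin (n + 1)) :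
    MeasurableSet (wedgeOn T x i) := by
  have : wedgeOn T x i = ⋂ j ∈ T, {z | z i * x j ≤ z j * x i} := by ext; simp [wedgeOn]
  rw [this]
  exact MeasurableSet.biInter (Set.to_countable _)
    fun j _ => measurableSet_le (by fun_prop) (by fun_prop)

lemma pyramid_on_one {A : Set (Fin (n + 1) → ℝ)} (hA : Convex ℝ A) (hAm : MeasurableSet A)
    {T : Finset (Fin (n + 1))} (hA0 : ∀ z ∈ A, ∀ j ∈ T, 0 ≤ z j) {x : Fin (n + 1) → ℝ}
    (hxA : x ∈ A) {i : Fin (n + 1)} (hi : 0 < x i) :
    ENNReal.ofReal (x i) * volume (face A i) ≤
      ENNReal.ofReal (n + 1) * volume (A ∩ wedgeOn T x i) := by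
  have hm := hAm.inter (wedgeOn_measurable T x i)
  have hmp := (volume_preserving_piFinSuccAbove (fun _ : Fin (n + 1) => ℝ) i).symm
  rw [← hmp.measure_preimage hm.nullMeasurableSet, Measure.volume_eq_prod,
    Measure.prod_apply (hmp.measurable hm)]
  have key : ∀ t ∈ Icc 0 (x i), ENNReal.ofReal ((1 - t / x i) ^ n) * volume (face A i) ≤
      volume (Prod.mk t ⁻¹'
        ((MeasurableEquiv.piFinSuccAbove (fun _ : Fin (n + 1) => ℝ) i).symm ⁻¹'
          (A ∩ wedgeOn T x i))) := by
    intro t ht
    set l := t / x i with hl
    have hl0 : 0 ≤ l := div_nonneg ht.1 hi.le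
    have hl1 : 0 ≤ 1 - l := by linarith [(div_le_one hi).2 ht.2]
    have hlx : l * x i = t := div_mul_cancel₀ _ hi.ne'
    have h1 : ENNReal.ofReal ((1 - l) ^ n) * volume (face A i) =
        volume ((fun a => (l • i.removeNth x) + a) '' ((1 - l) • face A i)) := by
      rw [image_add_left, measure_preimage_add, Measure.addHaar_smul_of_nonneg volume hl1]
      simp
    rw [h1]
    refine measure_mono ?_
    rintro _ ⟨_, ⟨a, ha, rfl⟩, rfl⟩
    have hz : i.insertNth t (l • i.removeNth x + (1 - l) • a) =
        l • x + (1 - l) • i.insertNth 0 a := by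
      funext j
      rcases Fin.eq_self_or_eq_succAbove i j with rfl | ⟨j, rfl⟩
      · simp [hlx]
      · simp [Fin.removeNth]
    show i.insertNth t (l • i.removeNth x + (1 - l) • a) ∈ A ∩ wedgeOn T x i
    rw [hz]
    refine ⟨hA hxA ha hl0 hl1 (by ring), fun j hjT => ?_⟩
    have hj := hA0 _ ha j hjT
    simp only [Pi.add_apply, Pi.smul_apply, smul_eq_mul, Fin.insertNth_apply_same, mul_zero,
      add_zero]
    nlinarith [mul_nonneg (mul_nonneg hl1 hj) hi.le]
  calc ENNReal.ofReal (x i) * volume (face A i)
      = ENNReal.ofReal (n + 1) *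
          ∫⁻ t in Icc 0 (x i), ENNReal.ofReal ((1 - t / x i) ^ n) * volume (face A i) := by
        rw [lintegral_mul_const _ (by fun_prop), integral_ramp hi, ← mul_assoc,
          ← ENNReal.ofReal_mul (by positivity), mul_div_cancel₀ _ (by positivity)]
    _ ≤ _ := mul_le_mul_right ((setLIntegral_mono' measurableSet_Icc key).trans
        (setLIntegral_le_lintegral _ _)) _

/-- The pyramid inequality in a set that is nonnegative only in the coordinates of `T`. -/
lemma pyramid_on {A : Set (Fin (n + 1) → ℝ)} (hA : Convex ℝ A) (hAm : MeasurableSet A)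
    {T : Finset (Fin (n + 1))} (hA0 : ∀ z ∈ A, ∀ j ∈ T, 0 ≤ z j) {x : Fin (n + 1) → ℝ}
    (hxA : x ∈ A) :
    ∑ i ∈ T, ENNReal.ofReal (x i) * volume (face A i) ≤
      ENNReal.ofReal (n + 1) * volume A := by
  classical
  let s : Finset (Fin (n + 1)) := T.filter fun i => 0 < x i
  calc ∑ i ∈ T, ENNReal.ofReal (x i) * volume (face A i)
      = ∑ i ∈ s, ENNReal.ofReal (x i) * volume (face A i) := by
        refine (Finset.sum_subset (Finset.filter_subset _ T) fun i hT hi => ?_).symm
        simp only [s, Finset.mem_filter, hT, true_and, not_lt] at hi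
        simp [ENNReal.ofReal_of_nonpos hi]
    _ ≤ ∑ i ∈ s, ENNReal.ofReal (n + 1) * volume (A ∩ wedgeOn T x i) :=
        Finset.sum_le_sum fun i hi => pyramid_on_one hA hAm hA0 hxA (Finset.mem_filter.1 hi).2
    _ = ENNReal.ofReal (n + 1) * volume (⋃ i ∈ s, A ∩ wedgeOn T x i) := by
        rw [← Finset.mul_sum, measure_biUnion_finset₀]
        · intro i hi j hj hij
          have hiT := (Finset.mem_filter.1 hi).1
          obtain ⟨hjT, hxj⟩ := Finset.mem_filter.1 hj
          let f : (Fin (n + 1) → ℝ) →ₗ[ℝ] ℝ :=
            x j • LinearMap.proj i - x i • LinearMap.proj j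
          refine measure_mono_null (t := (LinearMap.ker f : Set (Fin (n + 1) → ℝ)))
            (fun z hz => ?_) (Measure.addHaar_submodule volume _ fun h => hxj.ne' ?_)
          · simp only [SetLike.mem_coe, LinearMap.mem_ker, f, LinearMap.sub_apply,
              LinearMap.smul_apply, LinearMap.proj_apply, smul_eq_mul]
            linarith [hz.1.2 j hjT, hz.2.2 i hiT]
          · have : Pi.single i (1 : ℝ) ∈ LinearMap.ker f := h ▸ Submodule.mem_top
            simpa [f, Pi.single_eq_of_ne hij.symm] using this
        · exact fun i _ => (hAm.inter (wedgeOn_measurable T x i)).nullMeasurableSet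
    _ ≤ _ := mul_le_mul_right (measure_mono (iUnion₂_subset fun i _ => inter_subset_left)) _

/-- The part of `K` in the union of the orthants of signs `s` and of `s` changed at `k`. -/
def merged (K : Set (Fin n → ℝ)) (s : Fin n → ℝ) (k : Fin n) : Set (Fin n → ℝ) :=
  {z | (∀ i, i ≠ k → 0 ≤ z i) ∧ (fun i => s i * z i) ∈ K}

lemma merged_volume {K : Set (Fin n → ℝ)} (hK : IsClosed K) (s : Fin n → ℝ) (k : Fin n) :
    volume (merged K s k) =
      volume (piece K s) + volume (piece K fun i => if i = k then -s i else s i) := by
  set t : Fin n → ℝ := fun i => if i = k then -s i else s i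
  set f := Matrix.toLin' (Matrix.diagonal fun i : Fin n => if i = k then (-1 : ℝ) else 1)
  have hf : ∀ z : Fin n → ℝ, f z = flipSet {k} z := fun z => by
    funext i
    simp only [f, Matrix.toLin'_apply, Matrix.mulVec_diagonal, flipSet, Finset.mem_singleton]
    split_ifs <;> simp
  have hd : |LinearMap.det f| = 1 := by
    simp only [f, LinearMap.det_toLin', Matrix.det_diagonal, Finset.abs_prod]
    exact Finset.prod_eq_one fun i _ => by split_ifs <;> simp
  have hts : ∀ z : Fin n → ℝ, (fun i => t i * flipSet {k} z i) = fun i => s i * z i := fun z => by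
    funext i
    simp only [t, flipSet, Finset.mem_singleton]
    split_ifs <;> ring
  have hun : merged K s k = piece K s ∪ f ⁻¹' piece K t := by
    ext z
    simp only [merged, piece, mem_union, mem_preimage, mem_ofPred_eq, hf, hts]
    constructor
    · rintro ⟨h, hz⟩
      rcases le_total 0 (z k) with hk | hk
      · exact Or.inl ⟨fun i => (eq_or_ne i k).elim (fun e => e ▸ hk) (h i), hz⟩
      · refine Or.inr ⟨fun i => ?_, hz⟩
        rcases eq_or_ne i k with rfl | e
        · simp [flipSet, hk]
        · simp [flipSet, e, h i e]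
    · rintro (⟨h, hz⟩ | ⟨h, hz⟩)
      · exact ⟨fun i _ => h i, hz⟩
      · exact ⟨fun i e => by simpa [flipSet, e] using h i, hz⟩
  have hc : Continuous f := f.continuous_of_finiteDimensional
  have hnull : AEDisjoint volume (piece K s) (f ⁻¹' piece K t) := by
    refine measure_mono_null (t := {z : Fin n → ℝ | z k = 0}) (fun z hz => ?_)
      (Measure.pi_hyperplane _ k 0)
    have h2 := (show f z ∈ piece K t from hz.2).1 k
    rw [hf] at h2
    simp [flipSet] at h2
    exact le_antisymm h2 (hz.1.1 k)
  rw [hun, measure_union₀ ((piece_closed hK t).preimage hc).measurableSet.nullMeasurableSet hnull,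
    Measure.addHaar_preimage_linearMap volume (fun h => by simp [h] at hd), abs_inv, hd]
  simp

/-- With pair invariance the two kinds of pieces make up twice the body. -/
lemma pair_sum {K : Set (Fin n → ℝ)} (hK : IsCompact K)
    (h : ∀ i j, i ≠ j → ∀ x ∈ K, flipSet {i, j} x ∈ K) (i₀ : Fin n) :
    (2 : ℝ) ^ n * (volume.real (piece K 1) +
      volume.real (piece K fun i => if i = i₀ then (-1 : ℝ) else 1)) = 2 * volume.real K := by
  set σ : (Fin n → Bool) → (Fin n → Bool) := fun b i => if i = i₀ then !b i else b i
  have hσ : Function.Involutive σ := fun b => by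
    funext i
    simp only [σ]
    split_ifs <;> simp
  have hp : ∀ b, volume.real (piece K (sg b)) + volume.real (piece K (sg (σ b))) =
      volume.real (piece K 1) +
        volume.real (piece K fun i => if i = i₀ then (-1 : ℝ) else 1) := fun b => by
    have e : sg (σ b) = fun i => if i = i₀ then -sg b i else sg b i := by
      funext i
      by_cases h : i = i₀ <;> cases hb : b i <;> simp [sg, σ, h, hb] <;> simp_all
    rw [e]
    rcases pair_two_pieces h i₀ (isSign_sg b) with ⟨h1, h2⟩ | ⟨h1, h2⟩ <;> rw [h1, h2]
    exact add_comm _ _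
  have hs : ∑ b, volume.real (piece K (sg (σ b))) = volume.real K :=
    (Equiv.sum_comp (Function.Involutive.toPerm σ hσ)
      (fun b => volume.real (piece K (sg b)))).trans (sum_pieces hK)
  calc (2 : ℝ) ^ n * (_ + _)
      = ∑ b, (volume.real (piece K (sg b)) + volume.real (piece K (sg (σ b)))) := by
        simp [hp]
        ring
    _ = 2 * volume.real K := by rw [Finset.sum_add_distrib, hs, sum_pieces hK, two_mul]

/-- Mahler's inequality up to the factor `1 - 1 / n` for pair invariant bodies. -/
theorem pair_bound : ∀ {n : ℕ} {K : Set (Fin n → ℝ)}, SymBody K →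
    (∀ i j, i ≠ j → ∀ x ∈ K, flipSet {i, j} x ∈ K) →
      ((n : ℝ) - 1) / n * ((4 : ℝ) ^ n / n.factorial) ≤
        volume.real K * volume.real (polarSet K) := by
  intro n
  rcases n with _ | n
  · intro K _ _
    simp [mul_nonneg, measureReal_nonneg]
  intro K hK hpair
  have hE := pair_properEqui hpair
  set a : Fin (n + 1) → ℝ := fun i => volume.real (face K i)
  set T : ℝ := (4 : ℝ) ^ n / n.factorial
  set W : ℝ := volume.real K / 2 ^ n with hW
  have hW0 : 0 < W := div_pos hK.volume_pos (by positivity)
  have hind : ∀ i, T ≤ a i * volume.real (polarSet (face K i)) := by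
    intro i
    have hE' : ProperEqui (face K i) := fun k hk e he s t hs ht => by
      rw [sect_succAbove K i he]
      exact hE k (Nat.lt_succ_of_lt hk) _ (Fin.succAbove_right_injective.comp he) s t hs ht
    refine (equipartition_bound (hK.face i) hE'
      fun s hs => (face_piece_volume hK hE i hs).le).trans_eq ?_
    rw [mul_div_cancel₀ _ (by positivity)]
  have hcone : ∀ x ∈ K, ∀ k, ∑ i ∈ Finset.univ.erase k, |x i| * (2 * a i / 2 ^ n) ≤
      (n + 1) * W := by
    intro x hx k
    set b : Fin (n + 1) → Bool := fun i => decide (0 ≤ x i)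
    have hs := isSign_sg b
    set s := sg b with hsdef
    set A := merged K s k
    have hz : (fun i => |x i|) ∈ A := by
      refine ⟨fun i _ => abs_nonneg _, ?_⟩
      convert hx using 1
      funext i
      by_cases h : 0 ≤ x i
      · simp [s, sg, b, h, abs_of_nonneg h]
      · simp [s, sg, b, h, abs_of_neg (not_le.1 h)]
    have hconv : Convex ℝ A := by
      intro p hp q hq u v hu hv huv
      refine ⟨fun i hi => ?_, ?_⟩
      · simp only [Pi.add_apply, Pi.smul_apply, smul_eq_mul]
        exact add_nonneg (mul_nonneg hu (hp.1 i hi)) (mul_nonneg hv (hq.1 i hi))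
      · convert hK.conv hp.2 hq.2 hu hv huv using 1
        funext i
        simp
        ring
    have hmeas : MeasurableSet A := by
      show MeasurableSet (merged K s k)
      simp only [merged, ofPred_and, ofPred_forall]
      exact (MeasurableSet.iInter fun i => MeasurableSet.iInter fun _ =>
        measurableSet_le measurable_const (measurable_pi_apply i)).inter
          (hK.compact.isClosed.preimage (by fun_prop)).measurableSet
    have hvol : volume.real A = W := by
      have h1 := merged_volume hK.compact.isClosed s k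
      rw [measureReal_def, show A = merged K s k from rfl, h1, ENNReal.toReal_add]
      · have h2 := pair_sum hK.compact hpair k
        rw [pow_succ] at h2
        rw [← measureReal_def, ← measureReal_def, hW, eq_div_iff (by positivity)]
        rcases pair_two_pieces hpair k hs with ⟨e1, e2⟩ | ⟨e1, e2⟩ <;> rw [e1, e2] <;> linarith
      · exact (piece_compact hK.compact hs).measure_lt_top.ne
      · exact (piece_compact hK.compact fun i => by
          rcases hs i with h | h <;> split_ifs <;> simp [h]).measure_lt_top.ne
    have hfinA : volume A ≠ ⊤ := by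
      intro h
      rw [measureReal_def, h, ENNReal.toReal_top] at hvol
      linarith
    have hp := pyramid_on hconv hmeas (T := Finset.univ.erase k)
      (fun z hz j hj => hz.1 j (Finset.ne_of_mem_erase hj)) hz
    have hsg : ∀ i : Fin (n + 1), IsSign fun j => s (i.succAbove j) := fun i j => hs _
    have hlow : ∀ i ∈ Finset.univ.erase k,
        ENNReal.ofReal (|x i| * (2 * a i / 2 ^ n)) ≤
          ENNReal.ofReal |x i| * volume (face A i) := by
      intro i hi
      obtain ⟨k', hk'⟩ := Fin.exists_succAbove_eq (Finset.ne_of_mem_erase hi).symm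
      have hsub : merged (face K i) (fun j => s (i.succAbove j)) k' ⊆ face A i := by
        intro c hc
        refine ⟨fun j hj => ?_, ?_⟩
        · rcases Fin.eq_self_or_eq_succAbove i j with rfl | ⟨j, rfl⟩
          · simp
          · simpa using hc.1 j fun e => hj (e ▸ hk')
        · convert (show i.insertNth 0 (fun j => s (i.succAbove j) * c j) ∈ K from hc.2) using 1
          funext j
          rcases Fin.eq_self_or_eq_succAbove i j with rfl | ⟨j, rfl⟩ <;> simp
      refine le_trans ?_ (mul_le_mul_right (measure_mono hsub) _)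
      have hpc : ∀ t : Fin n → ℝ, IsSign t →
          volume (piece (face K i) t) = ENNReal.ofReal (a i / 2 ^ n) := fun t ht => by
        rw [← face_piece_volume hK hE i ht, measureReal_def, ENNReal.ofReal_toReal
          (piece_compact (hK.face i).compact ht).measure_lt_top.ne]
      rw [merged_volume (hK.face i).compact.isClosed, hpc _ (hsg i), hpc _ (fun j => by
        rcases hsg i j with h | h <;> split_ifs <;> simp [h]),
        ENNReal.ofReal_mul (abs_nonneg _), ← ENNReal.ofReal_add (by positivity) (by positivity)]
      exact le_of_eq (by congr 2; ring)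
    have h := ((Finset.sum_le_sum hlow).trans hp)
    rw [← ENNReal.ofReal_sum_of_nonneg (fun i _ => mul_nonneg (abs_nonneg _) (by positivity)),
      ← ENNReal.ofReal_toReal hfinA, ← measureReal_def, hvol,
      ← ENNReal.ofReal_mul (by positivity), ENNReal.ofReal_le_ofReal_iff (by positivity)] at h
    exact h
  set c : Fin (n + 1) → ℝ := fun i => 2 * n * a i / (2 ^ n * ((n + 1) ^ 2 * W)) with hc
  have hc0 : ∀ i, 0 ≤ c i := fun i =>
    div_nonneg (mul_nonneg (by positivity) measureReal_nonneg) (by positivity)
  have hbox : ∀ x ∈ K, ∑ j, c j * |x j| ≤ 1 := by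
    intro x hx
    have h := Finset.sum_le_sum (s := Finset.univ) fun k _ => hcone x hx k
    simp only [Finset.sum_erase_eq_sub (Finset.mem_univ _), Finset.sum_sub_distrib,
      Finset.sum_const, Finset.card_univ, Fintype.card_fin, nsmul_eq_mul, Nat.cast_succ] at h
    have e : ∑ j, c j * |x j| =
        n * (∑ i, |x i| * (2 * a i / 2 ^ n)) / ((n + 1) * ((n + 1) * W)) := by
      rw [Finset.mul_sum, Finset.sum_div]
      exact Finset.sum_congr rfl fun i _ => by simp only [hc]; field_simp
    rw [e, div_le_one (by positivity)]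
    linarith
  have hmain := box_bound hK hc0 hbox
  have hsum : ((n : ℝ) + 1) * (2 * n * T / (2 ^ n * ((n + 1) ^ 2 * W))) ≤
      ∑ i, c i * volume.real (polarSet (face K i)) := by
    have h := Finset.sum_le_sum (s := Finset.univ) fun i _ =>
      mul_le_mul_of_nonneg_left (hind i)
        (by positivity : (0 : ℝ) ≤ 2 * n / (2 ^ n * ((n + 1) ^ 2 * W)))
    simp only [Finset.sum_const, Finset.card_univ, Fintype.card_fin, nsmul_eq_mul,
      Nat.cast_succ] at h
    refine le_trans (le_of_eq ?_) (h.trans_eq (Finset.sum_congr rfl fun i _ => ?_))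
    · ring
    · simp only [hc]
      ring
  have h1 := (mul_le_mul_of_nonneg_left hsum zero_le_two).trans hmain
  rw [hW, mul_div_assoc', mul_div_assoc', div_le_iff₀ (by have := hK.volume_pos; positivity)] at h1
  rw [Nat.factorial_succ, pow_succ]
  push_cast
  rw [div_mul_div_comm, div_le_iff₀ (by positivity)]
  have hT : (4 : ℝ) ^ n = T * n.factorial := (div_mul_cancel₀ _ (by positivity)).symm
  rw [hT]
  field_simp at h1 ⊢
  nlinarith

end Vale.Agent.P248
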