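import Mathlib

/-!
The pyramid inequality and the volume product of polar convex down-sets of the orthant
(Saint-Raymond).
-/

namespace Vale.Agent.P248

open MeasureTheory Set
open scoped ENNReal Pointwise

variable {n : ℕ}

/-- The face `x i = 0`. -/
def face (A : Set (Fin (n + 1) → ℝ)) (i : Fin (n + 1)) : Set (Fin n → ℝ) :=
  {a | i.insertNth 0 a ∈ A}

/-- The cone over the face opposite to the coordinate `i`. -/
def wedge (x : Fin (n + 1) → ℝ) (i : Fin (n + 1)) : Set (Fin (n + 1) → ℝ) :=
  {z | ∀ j, z i * x j ≤ z j * x i}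

lemma wedge_inter_null {x : Fin (n + 1) → ℝ} {i j : Fin (n + 1)} (hij : i ≠ j) (hx : x j ≠ 0) :
    volume (wedge x i ∩ wedge x j) = 0 := by
  let f : (Fin (n + 1) → ℝ) →ₗ[ℝ] ℝ :=
    x j • LinearMap.proj i - x i • LinearMap.proj j
  refine measure_mono_null (t := (LinearMap.ker f : Set (Fin (n + 1) → ℝ))) (fun z hz => ?_)
    (Measure.addHaar_submodule volume _ fun h => hx ?_)
  · simp only [SetLike.mem_coe, LinearMap.mem_ker, f, LinearMap.sub_apply, LinearMap.smul_apply,
      LinearMap.proj_apply, smul_eq_mul]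
    linarith [hz.1 j, hz.2 i]
  · have : Pi.single i (1 : ℝ) ∈ LinearMap.ker f := h ▸ Submodule.mem_top
    simpa [f, Pi.single_eq_of_ne hij.symm] using this

lemma integral_ramp {x : ℝ} (hx : 0 < x) :
    ∫⁻ t in Icc 0 x, ENNReal.ofReal ((1 - t / x) ^ n) = ENNReal.ofReal (x / (n + 1)) := by
  rw [← ofReal_integral_eq_lintegral_ofReal, integral_Icc_eq_integral_Ioc,
    ← intervalIntegral.integral_of_le hx.le,
    intervalIntegral.integral_comp_sub_div (fun u => u ^ n) hx.ne' 1]
  · simp [integral_pow, hx.ne', smul_eq_mul]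
    ring_nf
  · exact (by fun_prop : Continuous fun t : ℝ => (1 - t / x) ^ n).integrableOn_Icc
  · refine (ae_restrict_iff' measurableSet_Icc).2 (ae_of_all _ fun t ht => ?_)
    have : t / x ≤ 1 := (div_le_one hx).2 ht.2
    exact pow_nonneg (by linarith) n

lemma pyramid_one {A : Set (Fin (n + 1) → ℝ)} (hA : Convex ℝ A) (hAm : MeasurableSet A)
    (hA0 : ∀ z ∈ A, ∀ j, 0 ≤ z j) {x : Fin (n + 1) → ℝ} (hxA : x ∈ A) {i : Fin (n + 1)}
    (hi : 0 < x i) :
    ENNReal.ofReal (x i) * volume (face A i) ≤
      ENNReal.ofReal (n + 1) * volume (A ∩ wedge x i) := by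
  have hwm : MeasurableSet (wedge x i) := by
    have : wedge x i = ⋂ j, {z | z i * x j ≤ z j * x i} := by ext; simp [wedge]
    rw [this]
    exact MeasurableSet.iInter fun j => measurableSet_le (by fun_prop) (by fun_prop)
  have hmp := (volume_preserving_piFinSuccAbove (fun _ : Fin (n + 1) => ℝ) i).symm
  rw [← hmp.measure_preimage (hAm.inter hwm).nullMeasurableSet, Measure.volume_eq_prod,
    Measure.prod_apply (hmp.measurable (hAm.inter hwm))]
  have key : ∀ t ∈ Icc 0 (x i), ENNReal.ofReal ((1 - t / x i) ^ n) * volume (face A i) ≤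
      volume (Prod.mk t ⁻¹'
        ((MeasurableEquiv.piFinSuccAbove (fun _ : Fin (n + 1) => ℝ) i).symm ⁻¹'
          (A ∩ wedge x i))) := by
    intro t ht
    set l := t / x i with hl
    have hl0 : 0 ≤ l := div_nonneg ht.1 hi.le
    have hl1 : 0 ≤ 1 - l := by linarith [(div_le_one hi).2 ht.2]
    have hlx : l * x i = t := div_mul_cancel₀ _ hi.ne'
    have h1 : ENNReal.ofReal ((1 - l) ^ n) * volume (face A i) =
        volume ((fun a => (l • i.removeNth x) + a) '' ((1 - l) • face A i)) := by
      rw [image_add_left, measure_preimage_add, Measure.addHaar_smul_of_nonneg volume hl1]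
      simp
    rw [h1]
    refine measure_mono ?_
    rintro _ ⟨_, ⟨a, ha, rfl⟩, rfl⟩
    have hz : i.insertNth t (l • i.removeNth x + (1 - l) • a) =
        l • x + (1 - l) • i.insertNth 0 a := by
      funext j
      rcases Fin.eq_self_or_eq_succAbove i j with rfl | ⟨j, rfl⟩
      · simp [hlx]
      · simp [Fin.removeNth]
    show i.insertNth t (l • i.removeNth x + (1 - l) • a) ∈ A ∩ wedge x i
    rw [hz]
    refine ⟨hA hxA ha hl0 hl1 (by ring), fun j => ?_⟩
    have hj := hA0 _ ha j
    simp only [Pi.add_apply, Pi.smul_apply, smul_eq_mul, Fin.insertNth_apply_same, mul_zero,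
      add_zero]
    nlinarith [mul_nonneg (mul_nonneg hl1 hj) hi.le]
  calc ENNReal.ofReal (x i) * volume (face A i)
      = ENNReal.ofReal (n + 1) *
          ∫⁻ t in Icc 0 (x i), ENNReal.ofReal ((1 - t / x i) ^ n) * volume (face A i) := by
        rw [lintegral_mul_const _ (by fun_prop), integral_ramp hi, ← mul_assoc,
          ← ENNReal.ofReal_mul (by positivity), mul_div_cancel₀ _ (by positivity)]
    _ ≤ _ := mul_le_mul_right ((setLIntegral_mono' measurableSet_Icc key).trans
        (setLIntegral_le_lintegral _ _)) _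

/-- The cones over the faces from a point are almost disjoint. -/
lemma pyramid {A : Set (Fin (n + 1) → ℝ)} (hA : Convex ℝ A) (hAm : MeasurableSet A)
    (hA0 : ∀ z ∈ A, ∀ j, 0 ≤ z j) {x : Fin (n + 1) → ℝ} (hxA : x ∈ A) :
    ∑ i, ENNReal.ofReal (x i) * volume (face A i) ≤ ENNReal.ofReal (n + 1) * volume A := by
  classical
  let s : Finset (Fin (n + 1)) := Finset.univ.filter fun i => 0 < x i
  calc ∑ i, ENNReal.ofReal (x i) * volume (face A i)
      = ∑ i ∈ s, ENNReal.ofReal (x i) * volume (face A i) := by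
        refine (Finset.sum_subset (Finset.subset_univ s) fun i _ hi => ?_).symm
        simp only [s, Finset.mem_filter, Finset.mem_univ, true_and, not_lt] at hi
        simp [ENNReal.ofReal_of_nonpos hi]
    _ ≤ ∑ i ∈ s, ENNReal.ofReal (n + 1) * volume (A ∩ wedge x i) :=
        Finset.sum_le_sum fun i hi => pyramid_one hA hAm hA0 hxA (Finset.mem_filter.1 hi).2
    _ = ENNReal.ofReal (n + 1) * volume (⋃ i ∈ s, A ∩ wedge x i) := by
        rw [← Finset.mul_sum, measure_biUnion_finset₀]
        · intro i hi j hj hij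
          refine measure_mono_null ?_ (wedge_inter_null hij (Finset.mem_filter.1 hj).2.ne')
          exact fun z hz => ⟨hz.1.2, hz.2.2⟩
        · intro i _
          refine (hAm.inter ?_).nullMeasurableSet
          have : wedge x i = ⋂ j, {z | z i * x j ≤ z j * x i} := by ext; simp [wedge]
          rw [this]
          exact MeasurableSet.iInter fun j => measurableSet_le (by fun_prop) (by fun_prop)
    _ ≤ _ := mul_le_mul_right (measure_mono (iUnion₂_subset fun i _ => inter_subset_left)) _

/-- Compact convex down-sets of the orthant. -/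
structure DownBody (A : Set (Fin n → ℝ)) : Prop where
  nonneg : ∀ z ∈ A, ∀ i, 0 ≤ z i
  conv : Convex ℝ A
  compact : IsCompact A
  down : ∀ z ∈ A, ∀ y : Fin n → ℝ, (∀ i, 0 ≤ y i) → (∀ i, y i ≤ z i) → y ∈ A

/-- Every nonnegative vector pairing at most one with `A` lies in `B`. -/
def ContainsPolar (A B : Set (Fin n → ℝ)) : Prop :=
  ∀ y : Fin n → ℝ, (∀ i, 0 ≤ y i) → (∀ x ∈ A, ∑ i, x i * y i ≤ 1) → y ∈ B

lemma DownBody.face {A : Set (Fin (n + 1) → ℝ)} (hA : DownBody A) (i : Fin (n + 1)) :
    DownBody (Vale.Agent.P248.face A i) := by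
  refine ⟨fun a ha j => ?_, fun a ha b hb u v hu hv huv => ?_, ?_, fun a ha b hb hba => ?_⟩
  · simpa using hA.nonneg _ ha (i.succAbove j)
  · show i.insertNth 0 (u • a + v • b) ∈ A
    convert hA.conv ha hb hu hv huv using 1
    funext j
    rcases Fin.eq_self_or_eq_succAbove i j with rfl | ⟨j, rfl⟩ <;> simp
  · refine Metric.isCompact_of_isClosed_isBounded
      (hA.compact.isClosed.preimage (continuous_const.finInsertNth i continuous_id)) ?_
    obtain ⟨M, hM⟩ := hA.compact.isBounded.exists_norm_le
    refine Bornology.IsBounded.subset Metric.isBounded_closedBall (fun a ha => ?_) (t :=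
      Metric.closedBall (0 : Fin n → ℝ) (max M 0))
    rw [mem_closedBall_zero_iff, pi_norm_le_iff_of_nonneg (le_max_right M 0)]
    intro j
    have := (norm_le_pi_norm (i.insertNth 0 a) (i.succAbove j)).trans
      (hM _ (show i.insertNth 0 a ∈ A from ha))
    simpa using this.trans (le_max_left M 0)
  · refine hA.down _ ha _ (fun j => ?_) fun j => ?_
    all_goals rcases Fin.eq_self_or_eq_succAbove i j with rfl | ⟨j, rfl⟩ <;> simp [hb, hba]

lemma ContainsPolar.face {A B : Set (Fin (n + 1) → ℝ)} (hA : DownBody A)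
    (h : ContainsPolar A B) (i : Fin (n + 1)) :
    ContainsPolar (Vale.Agent.P248.face A i) (Vale.Agent.P248.face B i) := by
  intro y hy hle
  refine h _ (fun j => ?_) fun x hx => ?_
  · rcases Fin.eq_self_or_eq_succAbove i j with rfl | ⟨j, rfl⟩ <;> simp [hy]
  rw [Fin.sum_univ_succAbove _ i]
  simp only [Fin.insertNth_apply_same, mul_zero, zero_add, Fin.insertNth_apply_succAbove]
  refine hle _ (hA.down x hx _ (fun j => ?_) fun j => ?_)
  all_goals rcases Fin.eq_self_or_eq_succAbove i j with rfl | ⟨j, rfl⟩ <;> simp [hA.nonneg x hx _]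

lemma DownBody.pairing {A : Set (Fin (n + 1) → ℝ)} (hA : DownBody A)
    (hV : 0 < volume.real A) :
    ∀ x ∈ A, ∑ i, x i *
      (volume.real (Vale.Agent.P248.face A i) / ((n + 1) * volume.real A)) ≤ 1 := by
  intro x hx
  have h := pyramid hA.conv hA.compact.measurableSet hA.nonneg hx
  have hfin : ENNReal.ofReal (n + 1) * volume A ≠ ⊤ :=
    ENNReal.mul_ne_top ENNReal.ofReal_ne_top hA.compact.measure_lt_top.ne
  have h' := ENNReal.toReal_mono hfin h
  rw [ENNReal.toReal_sum (fun i _ => ENNReal.mul_ne_top ENNReal.ofReal_ne_top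
    (hA.face i).compact.measure_lt_top.ne), ENNReal.toReal_mul,
    ENNReal.toReal_ofReal (by positivity)] at h'
  simp only [ENNReal.toReal_mul, ENNReal.toReal_ofReal (hA.nonneg x hx _), ← measureReal_def]
    at h'
  simp only [mul_div, ← Finset.sum_div]
  rwa [div_le_one (by positivity)]

lemma DownBody.volume_pos {A B : Set (Fin (n + 1) → ℝ)} (hA : DownBody A) (hB : DownBody B)
    (hBA : ContainsPolar B A)
    (hS : ∀ i, 0 < volume.real (Vale.Agent.P248.face A i)) : 0 < volume.real A := by
  obtain ⟨M, hM⟩ := hB.compact.isBounded.exists_norm_le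
  set δ : ℝ := 1 / ((n + 1) * max M 1) with hδ
  have hδ0 : 0 < δ := by positivity
  have hmem : (fun _ => δ) ∈ A := hBA _ (fun _ => hδ0.le) fun x hx => by
    calc ∑ i, x i * δ ≤ ∑ _i : Fin (n + 1), max M 1 * δ := Finset.sum_le_sum fun i _ =>
          mul_le_mul_of_nonneg_right ((Real.le_norm_self (x i)).trans
            (((norm_le_pi_norm x i).trans (hM x hx)).trans (le_max_left _ _))) hδ0.le
      _ = 1 := by simp [hδ]; field_simp
  have h := pyramid hA.conv hA.compact.measurableSet hA.nonneg hmem
  rw [measureReal_def, ENNReal.toReal_pos_iff]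
  refine ⟨pos_iff_ne_zero.2 fun h0 => ?_, hA.compact.measure_lt_top⟩
  rw [h0, mul_zero, nonpos_iff_eq_zero, Finset.sum_eq_zero_iff] at h
  have := h 0 (Finset.mem_univ _)
  simp only [mul_eq_zero, ENNReal.ofReal_eq_zero, not_le.2 hδ0, false_or] at this
  simpa [measureReal_def, this] using hS 0

/-- Saint-Raymond: polar convex down-sets of the orthant have volume product at least `1 / n!`. -/
theorem orthant_product : ∀ {n : ℕ} {A B : Set (Fin n → ℝ)}, DownBody A → DownBody B →
    ContainsPolar A B → ContainsPolar B A →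
    1 / (n.factorial : ℝ) ≤ volume.real A * volume.real B := by
  intro n
  induction n with
  | zero =>
    intro A B _ _ hAB hBA
    have hA : A = Set.univ := eq_univ_of_forall fun y => hBA y (fun i => i.elim0) (by simp)
    have hB : B = Set.univ := eq_univ_of_forall fun y => hAB y (fun i => i.elim0) (by simp)
    rw [hA, hB]
    simp [measureReal_def, MeasureTheory.volume_pi]
  | succ n ih =>
    intro A B hA hB hAB hBA
    have hface : ∀ i, 1 / (n.factorial : ℝ) ≤
        volume.real (Vale.Agent.P248.face A i) * volume.real (Vale.Agent.P248.face B i) := fun i =>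
      ih (hA.face i) (hB.face i) (hAB.face hA i) (hBA.face hB i)
    have hpos : ∀ i, 0 < volume.real (Vale.Agent.P248.face A i) ∧
        0 < volume.real (Vale.Agent.P248.face B i) := fun i => by
      have h := hface i
      have hf : (0 : ℝ) < 1 / (n.factorial : ℝ) := by positivity
      constructor <;> refine measureReal_nonneg.lt_of_ne fun h0 => ?_ <;>
        rw [← h0] at h <;> linarith
    have hV := hA.volume_pos hB hBA fun i => (hpos i).1
    have hW := hB.volume_pos hA hAB fun i => (hpos i).2
    have ha : (fun i => volume.real (Vale.Agent.P248.face A i) / ((n + 1) * volume.real A)) ∈ B :=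
      hAB _ (fun i => by positivity) (hA.pairing hV)
    have hle := hB.pairing hW _ ha
    have hsum : ∑ _i : Fin (n + 1), 1 / (n.factorial : ℝ) ≤
        ((n + 1) * volume.real A) * ((n + 1) * volume.real B) := by
      refine (Finset.sum_le_sum fun i _ => hface i).trans ?_
      rw [← div_le_one (by positivity), Finset.sum_div]
      refine le_of_eq_of_le (Finset.sum_congr rfl fun i _ => ?_) hle
      rw [div_mul_div_comm]
    simp only [Finset.sum_const, Finset.card_univ, Fintype.card_fin, nsmul_eq_mul,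
      Nat.cast_succ] at hsum
    rw [Nat.factorial_succ, Nat.cast_mul, Nat.cast_succ]
    have : ((n : ℝ) + 1) * (1 / (n.factorial : ℝ)) =
        ((n : ℝ) + 1) ^ 2 * (1 / (((n : ℝ) + 1) * n.factorial)) := by field_simp
    rw [this] at hsum
    refine le_of_mul_le_mul_left (hsum.trans_eq ?_) (by positivity : (0 : ℝ) < ((n : ℝ) + 1) ^ 2)
    ring

end Vale.Agent.P248
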