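import Vale.Agent.P248.Amalgam

/-!
Mahler's inequality for origin-symmetric bodies of dimension at most two.
-/

namespace Vale.Agent.P248

open MeasureTheory Set
open scoped ENNReal

/-- The polar set in coordinates. -/
def polarSet {d : ℕ} (K : Set (Fin d → ℝ)) : Set (Fin d → ℝ) :=
  {y | ∀ x ∈ K, ∑ j, x j * y j ≤ 1}

lemma polarSet_closed {d : ℕ} (K : Set (Fin d → ℝ)) : IsClosed (polarSet K) := by
  simp only [polarSet, ofPred_forall]
  exact isClosed_biInter fun x _ => isClosed_le (by fun_prop) continuous_const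

lemma polarSet_convex {d : ℕ} (K : Set (Fin d → ℝ)) : Convex ℝ (polarSet K) := by
  intro y hy z hz u v hu hv huv x hx
  have h : ∑ j, x j * (u • y + v • z) j = u * ∑ j, x j * y j + v * ∑ j, x j * z j := by
    simp [Finset.mul_sum, ← Finset.sum_add_distrib, mul_add, mul_left_comm]
  rw [h]
  nlinarith [mul_le_mul_of_nonneg_left (hy x hx) hu, mul_le_mul_of_nonneg_left (hz x hx) hv]

/-- The positive quadrant of a set. -/
def pos2 (K : Set (Fin 2 → ℝ)) : Set (Fin 2 → ℝ) :=
  {z | (∀ j, 0 ≤ z j) ∧ z ∈ K}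

lemma quad_bound {K : Set (Fin 2 → ℝ)} (hconv : Convex ℝ K) (hcl : IsClosed K)
    (h0 : (0 : Fin 2 → ℝ) ∈ K) (he : ∀ i, Pi.single i (1 : ℝ) ∈ K)
    (hfin : volume K ≠ ⊤) {p : Fin 2 → ℝ} (hp : p ∈ pos2 K) :
    p 0 + p 1 ≤ 2 * volume.real (pos2 K) := by
  have hA : Convex ℝ (pos2 K) := fun z hz w hw u v hu hv huv =>
    ⟨fun j => add_nonneg (mul_nonneg hu (hz.1 j)) (mul_nonneg hv (hw.1 j)),
      hconv hz.2 hw.2 hu hv huv⟩
  have hm : MeasurableSet (pos2 K) := by
    refine MeasurableSet.inter ?_ hcl.measurableSet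
    show MeasurableSet {z : Fin 2 → ℝ | ∀ j, 0 ≤ z j}
    rw [show {z : Fin 2 → ℝ | ∀ j, 0 ≤ z j} = ⋂ j, {z | 0 ≤ z j} by ext; simp]
    exact MeasurableSet.iInter fun j => measurableSet_le measurable_const (measurable_pi_apply j)
  have h := pyramid (n := 1) hA hm (fun z hz => hz.1) hp
  have hface : ∀ i, (1 : ℝ≥0∞) ≤ volume (face (pos2 K) i) := by
    intro i
    have h1 : volume (Icc (0 : Fin 1 → ℝ) 1) = 1 := by simp [Real.volume_Icc_pi]
    rw [← h1]
    refine measure_mono fun a ha => ?_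
    have h01 : (i.insertNth 0 a : Fin 2 → ℝ) =
        (1 - a 0) • (0 : Fin 2 → ℝ) + a 0 • Pi.single (i.succAbove 0) 1 := by
      funext j
      rcases Fin.eq_self_or_eq_succAbove i j with rfl | ⟨k, rfl⟩
      · simp [Fin.ne_succAbove]
      · have : k = 0 := Subsingleton.elim _ _
        subst this
        simp
    refine ⟨fun j => ?_, ?_⟩
    · rcases Fin.eq_self_or_eq_succAbove i j with rfl | ⟨k, rfl⟩
      · simp
      · simpa using ha.1 k
    · rw [h01]
      exact hconv h0 (he _) (by linarith [show a 0 ≤ 1 from ha.2 0]) (ha.1 0) (by ring)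
  have hfin' : volume (pos2 K) ≠ ⊤ := ne_top_of_le_ne_top hfin (measure_mono fun z hz => hz.2)
  have h2 : ENNReal.ofReal (p 0 + p 1) ≤ ENNReal.ofReal 2 * volume (pos2 K) := by
    rw [ENNReal.ofReal_add (hp.1 0) (hp.1 1)]
    refine le_trans ?_ (le_of_le_of_eq h (by norm_num))
    rw [Fin.sum_univ_two]
    exact add_le_add (le_mul_of_one_le_right' (hface 0)) (le_mul_of_one_le_right' (hface 1))
  have h3 := ENNReal.toReal_mono (ENNReal.mul_ne_top ENNReal.ofReal_ne_top hfin') h2
  rwa [ENNReal.toReal_mul, ENNReal.toReal_ofReal (by linarith [hp.1 0, hp.1 1]),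
    ENNReal.toReal_ofReal zero_le_two] at h3

/-- Hypotheses of a body in Auerbach position. -/
structure Auerbach (K : Set (Fin 2 → ℝ)) : Prop where
  conv : Convex ℝ K
  compact : IsCompact K
  symm : ∀ z ∈ K, -z ∈ K
  single : ∀ i, Pi.single i (1 : ℝ) ∈ K
  box : ∀ z ∈ K, ∀ i, z i ≤ 1

lemma Auerbach.zero {K : Set (Fin 2 → ℝ)} (h : Auerbach K) : (0 : Fin 2 → ℝ) ∈ K := by
  have := h.conv (h.single 0) (h.symm _ (h.single 0)) (by norm_num : (0:ℝ) ≤ 1/2)
    (by norm_num : (0:ℝ) ≤ 1/2) (by norm_num)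
  simpa using this

lemma polar_compact {K : Set (Fin 2 → ℝ)} (h : Auerbach K) : IsCompact (polarSet K) := by
  refine Metric.isCompact_of_isClosed_isBounded (polarSet_closed K)
    ((Metric.isBounded_closedBall (x := (0 : Fin 2 → ℝ)) (r := 1)).subset fun y hy => ?_)
  rw [mem_closedBall_zero_iff, pi_norm_le_iff_of_nonneg zero_le_one]
  intro i
  rw [Real.norm_eq_abs, abs_le]
  have h1 := hy _ (h.single i)
  have h2 := hy _ (h.symm _ (h.single i))
  simp [Pi.single_apply] at h1 h2
  constructor <;> linarith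

lemma quad_product {K : Set (Fin 2 → ℝ)} (h : Auerbach K) :
    0 < volume.real (pos2 K) ∧
      1 / (2 * volume.real (pos2 K)) ≤ volume.real (pos2 (polarSet K)) := by
  have hV := quad_bound h.conv h.compact.isClosed h.zero h.single h.compact.measure_lt_top.ne
    (p := Pi.single 0 1) ⟨fun j => by simp [Pi.single_apply]; split_ifs <;> norm_num, h.single 0⟩
  simp [Pi.single_apply] at hV
  have hV0 : 0 < volume.real (pos2 K) := by linarith
  set c := 1 / (2 * volume.real (pos2 K)) with hc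
  have hc0 : 0 < c := by positivity
  have hy : (fun _ => c) ∈ polarSet K := by
    intro x hx
    rw [Fin.sum_univ_two, ← add_mul, hc, mul_one_div, div_le_one (by positivity)]
    by_cases hpos : 0 ≤ x 0 ∧ 0 ≤ x 1
    · exact quad_bound h.conv h.compact.isClosed h.zero h.single h.compact.measure_lt_top.ne
        ⟨Fin.forall_fin_two.2 hpos, hx⟩
    · rcases not_and_or.1 hpos with hn | hn <;>
        linarith [h.box x hx 0, h.box x hx 1, not_le.1 hn]
  have hW := quad_bound (polarSet_convex K) (polarSet_closed K) (fun x _ => by simp)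
    (fun i x hx => by simpa [Pi.single_apply] using h.box x hx i)
    (polar_compact h).measure_lt_top.ne (p := fun _ => c) ⟨fun _ => hc0.le, hy⟩
  exact ⟨hV0, by linarith⟩

/-- Reflection in the coordinates marked negative. -/
noncomputable def flipMap (s : Fin 2 → ℝ) : (Fin 2 → ℝ) →ₗ[ℝ] (Fin 2 → ℝ) :=
  Matrix.toLin' (Matrix.diagonal s)

lemma flipMap_apply (s z : Fin 2 → ℝ) (i : Fin 2) : flipMap s z i = s i * z i := by
  simp [flipMap, Matrix.mulVec_diagonal]

lemma volume_flip {s : Fin 2 → ℝ} (hs : ∀ i, s i = 1 ∨ s i = -1) (S : Set (Fin 2 → ℝ)) :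
    volume.real (flipMap s ⁻¹' S) = volume.real S := by
  have hd : |LinearMap.det (flipMap s)| = 1 := by
    rw [flipMap, LinearMap.det_toLin', Matrix.det_diagonal, Fin.prod_univ_two, abs_mul]
    rcases hs 0 with h | h <;> rcases hs 1 with h' | h' <;> simp [h, h']
  rw [measureReal_def, Measure.addHaar_preimage_linearMap volume
    (fun h => by simp [h] at hd), abs_inv, hd]
  simp [measureReal_def]

lemma half_split {S : Set (Fin 2 → ℝ)} (hS : MeasurableSet S) (hfin : volume S ≠ ⊤) (i : Fin 2) :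
    volume.real S = volume.real (S ∩ {z | 0 ≤ z i}) + volume.real (S ∩ {z | z i ≤ 0}) := by
  have hm : MeasurableSet {z : Fin 2 → ℝ | z i ≤ 0} :=
    measurableSet_le (measurable_pi_apply i) measurable_const
  rw [← measureReal_union₀ (hS.inter hm).nullMeasurableSet ?_
    (ne_top_of_le_ne_top hfin (measure_mono inter_subset_left))
    (ne_top_of_le_ne_top hfin (measure_mono inter_subset_left)), ← inter_union_distrib_left]
  · congr 1
    ext z
    simp [le_total]
  · refine measure_mono_null (t := {z : Fin 2 → ℝ | z i = 0}) (fun z hz => ?_)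
      (Measure.pi_hyperplane _ i 0)
    exact le_antisymm hz.2.2 hz.1.2

lemma quad_sum {S : Set (Fin 2 → ℝ)} (hS : MeasurableSet S) (hfin : volume S ≠ ⊤)
    (hsym : ∀ z, z ∈ S → -z ∈ S) :
    volume.real S = 2 * (volume.real (pos2 S) + volume.real (pos2 (flipMap ![1, -1] ⁻¹' S))) := by
  have hfl : ∀ (s : Fin 2 → ℝ), (∀ i, s i = 1 ∨ s i = -1) → ∀ T : Set (Fin 2 → ℝ),
      volume.real T = volume.real (flipMap s ⁻¹' T) := fun s hs T => (volume_flip hs T).symm
  have hm : ∀ i : Fin 2, MeasurableSet {z : Fin 2 → ℝ | 0 ≤ z i} ∧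
      MeasurableSet {z : Fin 2 → ℝ | z i ≤ 0} := fun i =>
    ⟨measurableSet_le measurable_const (measurable_pi_apply i),
      measurableSet_le (measurable_pi_apply i) measurable_const⟩
  rw [half_split hS hfin 0,
    half_split (hS.inter (hm 0).1) (ne_top_of_le_ne_top hfin (measure_mono inter_subset_left)) 1,
    half_split (hS.inter (hm 0).2) (ne_top_of_le_ne_top hfin (measure_mono inter_subset_left)) 1]
  have e1 : S ∩ {z | 0 ≤ z 0} ∩ {z | 0 ≤ z 1} = pos2 S := by
    ext z; simp [pos2, Fin.forall_fin_two]; tauto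
  have e2 : flipMap ![-1, -1] ⁻¹' (S ∩ {z | z 0 ≤ 0} ∩ {z | z 1 ≤ 0}) = pos2 S := by
    ext z
    have : flipMap ![-1, -1] z = -z := by
      funext i; fin_cases i <;> simp [flipMap_apply]
    simp only [mem_preimage, this, mem_inter_iff, pos2, mem_ofPred_eq, Fin.forall_fin_two,
      Pi.neg_apply, neg_nonpos]
    constructor
    · rintro ⟨⟨h1, h2⟩, h3⟩
      exact ⟨⟨h2, h3⟩, by simpa using hsym _ h1⟩
    · rintro ⟨⟨h2, h3⟩, h1⟩
      exact ⟨⟨hsym _ h1, h2⟩, h3⟩
  have e3 : flipMap ![1, -1] ⁻¹' (S ∩ {z | 0 ≤ z 0} ∩ {z | z 1 ≤ 0}) =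
      pos2 (flipMap ![1, -1] ⁻¹' S) := by
    ext z
    simp [pos2, Fin.forall_fin_two, flipMap_apply]
    tauto
  have e4 : flipMap ![-1, 1] ⁻¹' (S ∩ {z | z 0 ≤ 0} ∩ {z | 0 ≤ z 1}) =
      pos2 (flipMap ![1, -1] ⁻¹' S) := by
    ext z
    have : flipMap ![-1, 1] z = -(flipMap ![1, -1] z) := by
      funext i; fin_cases i <;> simp [flipMap_apply]
    simp only [mem_preimage, this, mem_inter_iff, pos2, mem_ofPred_eq, Fin.forall_fin_two,
      Pi.neg_apply, flipMap_apply]
    norm_num
    constructor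
    · rintro ⟨⟨h1, h2⟩, h3⟩
      exact ⟨⟨h2, h3⟩, by simpa using hsym _ h1⟩
    · rintro ⟨⟨h2, h3⟩, h1⟩
      exact ⟨⟨hsym _ h1, h2⟩, h3⟩
  rw [hfl ![-1, -1] (by simp [Fin.forall_fin_two]) (S ∩ {z | z 0 ≤ 0} ∩ {z | z 1 ≤ 0}), e2,
    hfl ![1, -1] (by simp [Fin.forall_fin_two]) (S ∩ {z | 0 ≤ z 0} ∩ {z | z 1 ≤ 0}), e3,
    hfl ![-1, 1] (by simp [Fin.forall_fin_two]) (S ∩ {z | z 0 ≤ 0} ∩ {z | 0 ≤ z 1}), e4, e1]
  ring

lemma auerbach_product {K : Set (Fin 2 → ℝ)} (h : Auerbach K) :
    8 ≤ volume.real K * volume.real (polarSet K) := by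
  set F := flipMap ![1, -1] with hF
  have hFF : ∀ z, F (F z) = z := fun z => by
    funext i; fin_cases i <;> simp [hF, flipMap_apply]
  have hsq : ∀ z ∈ K, ∀ i, -1 ≤ z i := fun z hz i => by
    have := h.box _ (h.symm z hz) i
    simp at this
    linarith
  have h' : Auerbach (F ⁻¹' K) := by
    refine ⟨h.conv.linear_preimage F, ?_, fun z hz => ?_, fun i => ?_, fun z hz i => ?_⟩
    · have : F ⁻¹' K = F '' K := by
        ext z
        exact ⟨fun hz => ⟨F z, hz, hFF z⟩, by rintro ⟨w, hw, rfl⟩; simpa [hFF] using hw⟩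
      rw [this]
      exact h.compact.image F.continuous_of_finiteDimensional
    · simpa using h.symm _ hz
    · fin_cases i
      · show F (Pi.single 0 1) ∈ K
        convert h.single 0 using 1
        funext j; fin_cases j <;> simp [hF, flipMap_apply]
      · show F (Pi.single 1 1) ∈ K
        convert h.symm _ (h.single 1) using 1
        funext j; fin_cases j <;> simp [hF, flipMap_apply]
    · have a := h.box _ hz i
      have b := hsq _ hz i
      rw [hF, flipMap_apply] at a b
      fin_cases i <;> simp at a b ⊢ <;> linarith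
  have hpol : polarSet (F ⁻¹' K) = F ⁻¹' polarSet K := by
    ext y
    have key : ∀ x, ∑ j, x j * F y j = ∑ j, F x j * y j := fun x =>
      Finset.sum_congr rfl fun j _ => by rw [hF, flipMap_apply, flipMap_apply]; ring
    constructor
    · intro hy x hx
      rw [key]
      exact hy (F x) (by simpa [hFF] using hx)
    · intro hy x hx
      have := hy (F x) hx
      rwa [key, hFF] at this
  obtain ⟨a0, a⟩ := quad_product h
  obtain ⟨b0, b⟩ := quad_product h'
  rw [hpol] at b
  rw [quad_sum h.compact.measurableSet h.compact.measure_lt_top.ne h.symm,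
    quad_sum (polarSet_closed K).measurableSet (polar_compact h).measure_lt_top.ne
      fun y hy x hx => by simpa using hy (-x) (h.symm x hx)]
  set V := volume.real (pos2 K)
  set V' := volume.real (pos2 (F ⁻¹' K))
  have key : 2 ≤ (V + V') * (1 / (2 * V) + 1 / (2 * V')) := by
    rw [div_add_div _ _ (by positivity) (by positivity), mul_div_assoc',
      le_div_iff₀ (by positivity)]
    nlinarith [sq_nonneg (V - V')]
  nlinarith [mul_le_mul_of_nonneg_left (add_le_add a b) (add_nonneg a0.le b0.le)]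

/-- Mahler's inequality in the plane. -/
theorem mahler_two (p : Seminorm ℝ (Fin 2 → ℝ)) (hp : ∀ x, p x = 0 → x = 0) :
    8 ≤ volume.real {x | p x ≤ 1} * volume.real (polarSet {x | p x ≤ 1}) := by
  have hg := gauge_of_seminorm p hp
  set K := {x : Fin 2 → ℝ | p x ≤ 1}
  have hKc := hg.isCompact_le 1
  obtain ⟨⟨u, v⟩, huv, hmax⟩ := (hKc.prod hKc).exists_isMaxOn ⟨(0, 0), by simp, by simp⟩
    (f := fun q : (Fin 2 → ℝ) × (Fin 2 → ℝ) => q.1 0 * q.2 1 - q.1 1 * q.2 0) (by fun_prop)
  obtain ⟨hu, hv⟩ := huv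
  set D := u 0 * v 1 - u 1 * v 0
  have hle : ∀ x ∈ K, ∀ y ∈ K, x 0 * y 1 - x 1 * y 0 ≤ D := fun x hx y hy =>
    isMaxOn_iff.1 hmax (x, y) ⟨hx, hy⟩
  set e0 : Fin 2 → ℝ := Pi.single 0 1
  set e1 : Fin 2 → ℝ := Pi.single 1 1
  set δ := 1 / (p e0 + p e1 + 1)
  have hδ : 0 < δ := by positivity
  have hmem : ∀ e, (e = e0 ∨ e = e1) → δ • e ∈ K := by
    intro e he
    show p (δ • e) ≤ 1
    rw [map_smul_eq_mul, Real.norm_of_nonneg hδ.le, div_mul_eq_mul_div, one_mul,
      div_le_one (by positivity)]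
    rcases he with rfl | rfl <;> linarith [apply_nonneg p e0, apply_nonneg p e1]
  have hD : 0 < D := by
    have := hle _ (hmem e0 (Or.inl rfl)) _ (hmem e1 (Or.inr rfl))
    simp [e0, e1] at this
    nlinarith
  have hneg : ∀ x ∈ K, -x ∈ K := fun x hx => by simpa [K] using hx
  set T : (Fin 2 → ℝ) →ₗ[ℝ] (Fin 2 → ℝ) := Matrix.toLin' !![u 0, v 0; u 1, v 1]
  set T' : (Fin 2 → ℝ) →ₗ[ℝ] (Fin 2 → ℝ) := Matrix.toLin' !![u 0, u 1; v 0, v 1]
  have hT : ∀ z, T z = z 0 • u + z 1 • v := fun z => by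
    funext i; fin_cases i <;> simp [T, Matrix.mulVec, dotProduct, Fin.sum_univ_two] <;> ring
  have hdT : LinearMap.det T = D := by
    simp only [T, LinearMap.det_toLin', Matrix.det_fin_two_of, D]; ring
  have hdT' : LinearMap.det T' = D := by
    simp only [T', LinearMap.det_toLin', Matrix.det_fin_two_of, D]
  have hTinv : ∀ x, ∃ z, T z = x := fun x =>
    ⟨![(x 0 * v 1 - x 1 * v 0) / D, (u 0 * x 1 - u 1 * x 0) / D], by
      funext i
      fin_cases i <;> simp [hT] <;> field_simp <;> ring⟩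
  have hA : Auerbach (T ⁻¹' K) := by
    have hbox : ∀ z ∈ T ⁻¹' K, ∀ i, |z i| ≤ 1 := by
      intro z hz i
      have hz' : z 0 • u + z 1 • v ∈ K := hT z ▸ hz
      have a := hle _ hz' _ hv
      have a' := hle _ (hneg _ hz') _ hv
      have b := hle _ hu _ hz'
      have b' := hle _ hu _ (hneg _ hz')
      simp at a a' b b'
      rw [abs_le]
      fin_cases i <;>
        exact ⟨le_of_mul_le_mul_right (by simp [D] at *; nlinarith) hD,
          le_of_mul_le_mul_right (by simp [D] at *; nlinarith) hD⟩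
    refine ⟨((show p.closedBall 0 1 = K from p.closedBall_zero_eq) ▸ p.convex_closedBall 0 1 : Convex ℝ K).linear_preimage T,
      Metric.isCompact_of_isClosed_isBounded
        (hKc.isClosed.preimage T.continuous_of_finiteDimensional)
        ((Metric.isBounded_closedBall (x := (0 : Fin 2 → ℝ)) (r := 1)).subset fun z hz =>
          mem_closedBall_zero_iff.2 ((pi_norm_le_iff_of_nonneg zero_le_one).2 (hbox z hz))),
      fun z hz => by simpa using hneg _ hz, fun i => ?_,
      fun z hz i => (le_abs_self _).trans (hbox z hz i)⟩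
    show T (Pi.single i 1) ∈ K
    rw [hT]
    fin_cases i <;> simpa using ‹_›
  have hpol : polarSet K = T' ⁻¹' polarSet (T ⁻¹' K) := by
    ext y
    have key : ∀ z, ∑ j, z j * T' y j = ∑ j, T z j * y j := fun z => by
      simp [hT, T', Fin.sum_univ_two, Matrix.mulVec, dotProduct]; ring
    constructor
    · intro hy z hz
      rw [key]
      exact hy _ hz
    · intro hy x hx
      obtain ⟨z, rfl⟩ := hTinv x
      rw [← key]
      exact hy z hx
  have h := auerbach_product hA
  rw [measureReal_def, Measure.addHaar_preimage_linearMap volume (hdT.symm ▸ hD.ne'),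
    ENNReal.toReal_mul, hdT, ENNReal.toReal_ofReal (abs_nonneg _), ← measureReal_def] at h
  rw [hpol, measureReal_def (s := T' ⁻¹' _),
    Measure.addHaar_preimage_linearMap volume (hdT'.symm ▸ hD.ne'), ENNReal.toReal_mul, hdT',
    ENNReal.toReal_ofReal (abs_nonneg _), ← measureReal_def]
  linarith

/-- Mahler's inequality in dimension at most two. -/
theorem mahler_small {d : ℕ} (hd : d ≤ 2) (p : Seminorm ℝ (Fin d → ℝ))
    (hp : ∀ x, p x = 0 → x = 0) :
    (4 : ℝ) ^ d ≤ d.factorial * (volume.real {x | p x ≤ 1} *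
      volume.real {y : Fin d → ℝ | ∀ x ∈ {x | p x ≤ 1}, ∑ j, x j * y j ≤ 1}) := by
  interval_cases d
  · have h1 : {x : Fin 0 → ℝ | p x ≤ 1} = univ := by
      ext x; simp only [mem_ofPred_eq, mem_univ, iff_true, Subsingleton.elim x 0]; exact (map_zero p).trans_le zero_le_one
    simp [h1, measureReal_def, MeasureTheory.volume_pi]
  · set c := p 1
    have hc : 0 < c := (apply_nonneg p _).lt_of_ne fun h => one_ne_zero (hp 1 h.symm)
    have hpx : ∀ x : Fin 1 → ℝ, p x = |x 0| * c := fun x => by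
      have : x = x 0 • (1 : Fin 1 → ℝ) := funext fun i => by simp [Subsingleton.elim i 0]
      conv_lhs => rw [this]
      rw [map_smul_eq_mul, Real.norm_eq_abs]
    have h1 : {x : Fin 1 → ℝ | p x ≤ 1} = Metric.closedBall 0 (1 / c) := by
      ext x
      simp [hpx, pi_norm_le_iff_of_nonneg (one_div_nonneg.2 hc.le), ← le_div_iff₀ hc, -one_div]
    have h2 : {y : Fin 1 → ℝ | ∀ x ∈ {x : Fin 1 → ℝ | p x ≤ 1}, ∑ j, x j * y j ≤ 1} =
        Metric.closedBall 0 c := by
      ext y
      simp only [mem_closedBall_zero_iff, pi_norm_le_iff_of_nonneg hc.le, mem_ofPred_eq,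
        Fin.sum_univ_one, hpx, Real.norm_eq_abs, Fin.forall_fin_one]
      constructor
      · intro h
        rw [abs_le]
        have a := h (fun _ => 1 / c) (by rw [abs_of_pos (by positivity)]; field_simp; rfl)
        have b := h (fun _ => -(1 / c)) (by rw [abs_neg, abs_of_pos (by positivity)]; field_simp; rfl)
        simp [neg_mul, inv_mul_eq_div] at a b
        constructor
        · have := (div_le_one hc).1 (show -y 0 / c ≤ 1 by rw [neg_div]; exact b)
          linarith
        · exact (div_le_one hc).1 a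
      · intro h x hx
        calc x 0 * y 0 ≤ |x 0| * |y 0| := (le_abs_self _).trans (abs_mul _ _).le
          _ ≤ |x 0| * c := mul_le_mul_of_nonneg_left h (abs_nonneg _)
          _ ≤ 1 := hx
    rw [h2, h1]
    simp [measureReal_def, Real.volume_pi_closedBall _ hc.le,
      Real.volume_pi_closedBall _ (inv_nonneg.2 hc.le), mul_nonneg, hc.le]
    field_simp
    norm_num
  · have := mahler_two p hp
    simp only [polarSet] at this
    rw [Nat.factorial_two]
    push_cast
    linarith

end Vale.Agent.P248
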